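import Vale.Agent.P092.RC.Defs

/-!
P092 (helper42), block B3 (strong tails): the abstract ambient algebra, the dynamical data of the
source group, the two inputs `Esc` and `NIM`, and the output `Tails`.
-/

open scoped InnerProductSpace ENNReal
open MeasureTheory Filter Topology

namespace Vale.Agent.P092ST

open Vale.Agent.P092.RC (Cm)

/-- **The ambient algebra.** `𝒦` is the amplified space, `SH` the representation of band zero,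
`V` the true representation (on the corner `p = V 1`), `Cm 𝓦` the amplified finite algebra,
`Pj` the projections onto unions of cells, `e n` isometries with orthogonal ranges, and the
`Ω i` compute the trace. -/
structure Amb (G Γ 𝒦 : Type) [Group G] [TopologicalSpace G] [Group Γ] [NormedAddCommGroup 𝒦]
    [InnerProductSpace ℂ 𝒦] [CompleteSpace 𝒦] where
  /-- the shifts -/
  SH : G →* (𝒦 →L[ℂ] 𝒦)
  /-- the true representation -/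
  V : G → (𝒦 →L[ℂ] 𝒦)
  /-- the commutant -/
  𝓦 : Set (𝒦 →L[ℂ] 𝒦)
  /-- the position projections -/
  Pj : Set Γ → (𝒦 →L[ℂ] 𝒦)
  /-- the length -/
  len : Γ → ℝ
  /-- the slots -/
  e : ℕ → (𝒦 →L[ℂ] 𝒦)
  /-- the trace vectors -/
  Ω : ℕ → 𝒦
  SH_star : ∀ g, star (SH g) = SH g⁻¹
  SH_cont : ∀ ξ, Continuous fun g => SH g ξ
  V_mul : ∀ g h, V g * V h = V (g * h)
  V_star : ∀ g, star (V g) = V g⁻¹
  W_star : ∀ w ∈ 𝓦, star w ∈ 𝓦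
  nrm : ∀ T, Cm 𝓦 T → ∀ g, Cm 𝓦 (SH g * T * SH g⁻¹)
  V_deg : ∀ g, Cm 𝓦 (V g * SH g⁻¹)
  e_cm : ∀ n, Cm 𝓦 (e n)
  e_SH : ∀ n g, SH g * e n = e n * SH g
  e_iso : ∀ n, star (e n) * e n = 1
  e_orth : ∀ n m, n ≠ m → star (e n) * e m = 0
  Pj_compl : ∀ A, Pj A + Pj Aᶜ = 1
  Pj_star : ∀ A, star (Pj A) = Pj A
  Pj_disj : ∀ A B, Disjoint A B → Pj A * Pj B = 0
  Pj_SH : ∀ A g, SH g * Pj A = Pj A * SH g
  Pj_e : ∀ A n, e n * Pj A = Pj A * e n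
  Pj_p : ∀ A, V 1 * Pj A = Pj A * V 1
  len_one : len 1 = 0
  len_inv : ∀ s, len s⁻¹ = len s
  len_mul : ∀ s t, len (s * t) ≤ len s + len t
  Ω_zero : V 1 (Ω 0) = Ω 0
  Ω_succ : ∀ i, V 1 (Ω (i + 1)) = 0
  Ω_norm : ‖Ω 0‖ = 1
  tr_adj : ∀ g T, Cm 𝓦 (T * SH g⁻¹) →
    ∑' i, ‖(star T : 𝒦 →L[ℂ] 𝒦) (Ω i)‖ₑ ^ 2 = ∑' i, ‖T (Ω i)‖ₑ ^ 2
  faith : ∀ T, Cm 𝓦 T → (∀ i, T (Ω i) = 0) → T = 0

/-- `b` or `b⁻¹` -/
def sg {G : Type} [Group G] (b : G) : Bool → G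
  | true => b
  | false => b⁻¹

/-- **The dynamical data of the source group.** -/
structure Dyn (G : Type) [Group G] [TopologicalSpace G] [MeasurableSpace G] (μ : Measure G) where
  /-- the distance to the unit (the square root of a matrix gauge) -/
  ρ : G → ℝ
  /-- the wall element -/
  b : G
  /-- the size of the family -/
  p : ℕ
  /-- the family with a spectral gap -/
  F : Fin p → G
  /-- the rate of contraction -/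
  c : ℝ
  p_pos : 0 < p
  c_pos : 0 < c
  ρ_nonneg : ∀ v, 0 ≤ ρ v
  ρ_inv : ∀ v, ρ v⁻¹ = ρ v
  conj : ∀ g, ∃ D : ℝ, ∀ v, ρ (g⁻¹ * v * g) ≤ D * ρ v
  small : ∀ O ∈ 𝓝 (1 : G), ∃ δ : ℝ, 0 < δ ∧ ∀ v, ρ v ≤ δ → v ∈ O
  comm : ∀ i, b * F i = F i * b
  gen : ∀ Q : Set G, IsCompact Q → ∃ (m : ℕ) (R : ℝ), ∀ h ∈ Q, ∃ l : List (G × Bool),
    l.length ≤ m ∧ (l.map Prod.fst).prod = h ∧
      ∀ a ∈ l, ∀ r : ℕ, ρ ((sg b a.2 ^ r)⁻¹ * a.1 * sg b a.2 ^ r) ≤ Real.exp (R - c * r)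
  bump : ∃ (C : ℝ) (d : ℕ), ∀ δ : ℝ, 0 < δ → δ ≤ 1 → ∃ χ : G → ℝ, Continuous χ ∧
    HasCompactSupport χ ∧ (∀ x, 0 ≤ χ x) ∧ ∫ x, χ x ∂μ = 1 ∧ (∀ x, χ x ≠ 0 → ρ x ≤ δ) ∧
      ∀ v, ∫ x, |χ (v⁻¹ * x) - χ x| ∂μ ≤ (C / δ ^ d * ρ v) ^ 2

/-- bounded Borel functions which vary slowly at infinity under right translations -/
def Hig {G' : Type} [Group G'] [TopologicalSpace G'] [MeasurableSpace G'] (f : G' → ℝ) : Prop :=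
  Measurable f ∧ (∃ C, ∀ x, |f x| ≤ C) ∧ ∀ Q : Set G', IsCompact Q → ∀ ε : ℝ, 0 < ε →
    ∃ L : Set G', IsCompact L ∧ ∀ x ∉ L, ∀ s ∈ Q, |f (x * s) - f x| ≤ ε

/-- **No invariant mean at infinity** (a property of the target group). -/
def NIM (G' : Type) [Group G'] [TopologicalSpace G'] [MeasurableSpace G'] : Prop :=
  ∃ (n : ℕ) (f : Fin n → G' → ℝ) (g : Fin n → G') (L : Set G'), IsCompact L ∧ (∀ i, Hig (f i)) ∧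
    ∀ x ∉ L, 1 ≤ ∑ i, (f i ((g i)⁻¹ * x) - f i x)

namespace Amb

variable {G Γ 𝒦 : Type} [Group G] [TopologicalSpace G] [Group Γ] [NormedAddCommGroup 𝒦]
  [InnerProductSpace ℂ 𝒦] [CompleteSpace 𝒦] (A : Amb G Γ 𝒦)

/-- operators of degree `g` -/
def Deg (g : G) (T : 𝒦 →L[ℂ] 𝒦) : Prop := Cm A.𝓦 (T * A.SH g⁻¹)

/-- operators of band `J` -/
def Band (J : ℝ) (T : 𝒦 →L[ℂ] 𝒦) : Prop :=
  ∀ X Y : Set Γ, (∀ a ∈ X, ∀ b ∈ Y, J < A.len (a * b⁻¹)) → A.Pj X * T * A.Pj Y = 0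

/-- `Tr (T* T)` -/
noncomputable def H2 (T : 𝒦 →L[ℂ] 𝒦) : ℝ≥0∞ := ∑' i, ‖T (A.Ω i)‖ₑ ^ 2

/-- the trace of the corner -/
noncomputable def τ (T : 𝒦 →L[ℂ] 𝒦) : ℂ := ⟪A.Ω 0, T (A.Ω 0)⟫_ℂ

/-- elements of the corner -/
def Cor (T : 𝒦 →L[ℂ] 𝒦) : Prop := A.V 1 * T * A.V 1 = T

/-- the smooth gauge of level zero -/
def L0 (ρ : G → ℝ) : Prop :=
  ∀ ε : ℝ, 0 < ε → ∃ (ω w : 𝒦 →L[ℂ] 𝒦) (C : ℝ), A.Deg 1 ω ∧ A.Deg 1 w ∧ star ω * ω = A.V 1 ∧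
    star w * w = A.V 1 ∧ (∀ X, w * A.Pj X = A.Pj X * w) ∧ ‖(ω - w) (A.Ω 0)‖ ≤ ε ∧
      ∀ v, ‖(A.SH v * ω - ω * A.V v) (A.Ω 0)‖ ≤ C * ρ v

/-- banded contractions are dense in the isometric columns -/
def Kap : Prop :=
  ∀ (g : G) (T : 𝒦 →L[ℂ] 𝒦), A.Deg g T → star T * T = A.V 1 → ∀ ε : ℝ, 0 < ε →
    ∃ (J : ℝ) (y : 𝒦 →L[ℂ] 𝒦), A.Deg g y ∧ A.Band J y ∧ ‖y‖ ≤ 1 ∧ ‖(y - T) (A.Ω 0)‖ ≤ ε

/-- the spectral gap of a finite family on the trace zero part of the corner -/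
def Gap {p : ℕ} (F : Fin p → G) : Prop :=
  ∃ θ : ℝ, θ < 1 ∧ ∀ D, A.Deg 1 D → A.Cor D → A.τ D = 0 →
    ‖((p : ℂ)⁻¹ • ∑ i, A.V (F i) * D * A.V (F i)⁻¹) (A.Ω 0)‖ ≤ θ * ‖D (A.Ω 0)‖

/-- **No escape**: there is no almost central, singular vector with the statistics of the trace. -/
def Esc : Prop :=
  ∃ (η : ℝ) (S : Finset G) (R : ℝ), 0 < η ∧ 0 ≤ R ∧ ∀ v, A.Deg 1 v → A.Cor v → star v = v →
    ‖v (A.Ω 0)‖ ≤ 1 →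
    (∀ x, A.Deg 1 x → A.Cor x → A.Band R x → ‖x‖ ≤ 1 →
      ‖A.τ (v * x * v) - (‖v (A.Ω 0)‖ ^ 2 : ℝ) * A.τ x‖ ≤ η) →
    (∀ x, A.Deg 1 x → A.Cor x → ‖x‖ ≤ 1 → ‖A.τ (x * v)‖ ≤ η) →
    (∀ g ∈ S, ∀ y, A.Deg g y → A.Cor y → A.Band R y → ‖y‖ ≤ 1 →
      ‖(y * v - v * y) (A.Ω 0)‖ ≤ η + 10 * ‖(y - A.V g) (A.Ω 0)‖) →
    ‖v (A.Ω 0)‖ < 1 / 2

/-- **Strong tails**, two-sided, uniform on compact sets, in one gauge `ω`. -/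
def Tails : Prop :=
  ∃ ω : 𝒦 →L[ℂ] 𝒦, A.Deg 1 ω ∧ star ω * ω = A.V 1 ∧ ∃ c : ℝ, 0 < c ∧ ∀ Q : Set G, IsCompact Q →
    ∀ᶠ J : ℝ in atTop, ∀ h ∈ Q, ∃ y, A.Deg h y ∧ A.Band J y ∧ ‖y‖ ≤ 1 ∧
      A.H2 (y - ω * A.V h * star ω) ≤
        ENNReal.ofReal (Real.exp (-Real.exp (c * √(Real.log J))) ^ 2)

end Amb

/-- the statement of the abstract core of block B3 -/
def CoreStmt : Prop :=
  ∀ (G Γ 𝒦 : Type) [Group G] [TopologicalSpace G] [IsTopologicalGroup G] [LocallyCompactSpace G]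
    [SecondCountableTopology G] [T2Space G] [MeasurableSpace G] [BorelSpace G] (μ : Measure G)
    [μ.IsHaarMeasure] [Group Γ] [NormedAddCommGroup 𝒦] [InnerProductSpace ℂ 𝒦] [CompleteSpace 𝒦]
    (A : Amb G Γ 𝒦) (D : Dyn G μ), A.L0 D.ρ → A.Kap → A.Gap D.F → A.Esc → A.Tails

end Vale.Agent.P092ST
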