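import Vale.Agent.P092ST.Hs

/-!
P092 (helper42), block B3: smoothing by a bump function.
-/

set_option linter.all false

open scoped InnerProductSpace ENNReal ComplexConjugate
open MeasureTheory Filter Topology

namespace Vale.Agent.P092ST

section bump

variable {G 𝒦 : Type} [TopologicalSpace G] [MeasurableSpace G] [NormedAddCommGroup 𝒦]
  [InnerProductSpace ℂ 𝒦] [CompleteSpace 𝒦]

/-- a probability density -/
structure Bump (μ : Measure G) (χ : G → ℝ) : Prop where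
  cont : Continuous χ
  cpt : HasCompactSupport χ
  pos : ∀ x, 0 ≤ χ x
  one : ∫ x, χ x ∂μ = 1

/-- `T` is the strong integral of `F` -/
def IsInt (μ : Measure G) (χ : G → ℝ) (T : 𝒦 →L[ℂ] 𝒦) (F : G → 𝒦 →L[ℂ] 𝒦) : Prop :=
  ∀ ξ, Integrable (fun v => (χ v : ℂ) • F v ξ) μ ∧ T ξ = ∫ v, (χ v : ℂ) • F v ξ ∂μ

variable {μ : Measure G} {χ : G → ℝ} {T T' : 𝒦 →L[ℂ] 𝒦} {F F' : G → 𝒦 →L[ℂ] 𝒦}

theorem Bump.int (h : Bump μ χ) : Integrable χ μ := by
  by_contra c
  have := h.one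
  rw [integral_undef c] at this
  exact zero_ne_one this

theorem Bump.norm_le (h : Bump μ χ) {φ : G → 𝒦} {c : ℝ} (hc : ∀ v, χ v ≠ 0 → ‖φ v‖ ≤ c) :
    ‖∫ v, (χ v : ℂ) • φ v ∂μ‖ ≤ c := by
  refine (norm_integral_le_of_norm_le (h.int.mul_const c) (ae_of_all _ fun v => ?_)).trans ?_
  · rw [norm_smul, Complex.norm_real, Real.norm_of_nonneg (h.pos v)]
    by_cases e : χ v = 0
    · simp [e]
    · exact mul_le_mul_of_nonneg_left (hc v e) (h.pos v)
  · rw [integral_mul_const, h.one, one_mul]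

theorem IsInt.mul_left (h : IsInt μ χ T F) (a : 𝒦 →L[ℂ] 𝒦) :
    IsInt μ χ (a * T) fun v => a * F v := fun ξ => by
  have e : (fun v => (χ v : ℂ) • (a * F v) ξ) = fun v => a ((χ v : ℂ) • F v ξ) :=
    funext fun v => by rw [map_smul]; rfl
  rw [e]
  exact ⟨a.integrable_comp (h ξ).1, by
    rw [a.integral_comp_comm (h ξ).1, ← (h ξ).2]; rfl⟩

theorem IsInt.mul_right (h : IsInt μ χ T F) (a : 𝒦 →L[ℂ] 𝒦) :
    IsInt μ χ (T * a) fun v => F v * a := fun ξ => h (a ξ)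

theorem IsInt.add (h : IsInt μ χ T F) (h' : IsInt μ χ T' F') :
    IsInt μ χ (T + T') fun v => F v + F' v := fun ξ => by
  have e : (fun v => (χ v : ℂ) • (F v + F' v) ξ) =
      fun v => (χ v : ℂ) • F v ξ + (χ v : ℂ) • F' v ξ := funext fun v => smul_add _ _ _
  rw [e]
  exact ⟨(h ξ).1.add (h' ξ).1, by
    rw [integral_add (h ξ).1 (h' ξ).1, ← (h ξ).2, ← (h' ξ).2]; rfl⟩

theorem IsInt.smul (h : IsInt μ χ T F) (c : ℂ) : IsInt μ χ (c • T) fun v => c • F v := by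
  have := h.mul_left (c • 1)
  simpa only [smul_mul_assoc, one_mul] using this

theorem IsInt.sub (h : IsInt μ χ T F) (h' : IsInt μ χ T' F') :
    IsInt μ χ (T - T') fun v => F v - F' v := by
  have := h.add (h'.smul (-1))
  simpa only [neg_smul, one_smul, ← sub_eq_add_neg] using this

theorem Bump.const (h : Bump μ χ) (T : 𝒦 →L[ℂ] 𝒦) : IsInt μ χ T fun _ => T := fun ξ =>
  ⟨h.int.ofReal.smul_const _, by
    rw [integral_smul_const, integral_complex_ofReal, h.one]; simp⟩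

theorem IsInt.sum {ι : Type} (s : Finset ι) {T : ι → 𝒦 →L[ℂ] 𝒦} {F : ι → G → 𝒦 →L[ℂ] 𝒦}
    (h : ∀ i, IsInt μ χ (T i) (F i)) : IsInt μ χ (∑ i ∈ s, T i) fun v => ∑ i ∈ s, F i v := by
  classical
  induction s using Finset.induction_on with
  | empty => exact fun ξ => by simp
  | insert i s hi ih =>
    simp only [Finset.sum_insert hi]
    exact (h i).add ih

theorem IsInt.av {ι : Type} [Fintype ι] {T : ι → 𝒦 →L[ℂ] 𝒦} {F : ι → G → 𝒦 →L[ℂ] 𝒦}
    (h : ∀ i, IsInt μ χ (T i) (F i)) : IsInt μ χ (av T) fun v => av fun i => F i v :=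
  (IsInt.sum _ h).smul _

theorem IsInt.apply_le (hχ : Bump μ χ) (h : IsInt μ χ T F) (ξ : 𝒦) {c : ℝ}
    (hc : ∀ v, χ v ≠ 0 → ‖F v ξ‖ ≤ c) : ‖T ξ‖ ≤ c := by
  rw [(h ξ).2]; exact hχ.norm_le hc

theorem IsInt.norm_le (hχ : Bump μ χ) (h : IsInt μ χ T F) {c : ℝ} (c0 : 0 ≤ c)
    (hc : ∀ v, χ v ≠ 0 → ‖F v‖ ≤ c) : ‖T‖ ≤ c :=
  T.opNorm_le_bound c0 fun ξ => h.apply_le hχ ξ fun v hv =>
    ((F v).le_opNorm ξ).trans (mul_le_mul_of_nonneg_right (hc v hv) (norm_nonneg _))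

theorem IsInt.eq_zero (hχ : Bump μ χ) (h : IsInt μ χ T F) (h0 : ∀ v, F v = 0) : T = 0 :=
  norm_le_zero_iff.1 (h.norm_le hχ le_rfl fun v _ => by rw [h0, norm_zero])

theorem IsInt.star (h : IsInt μ χ T F) (h' : IsInt μ χ T' fun v => star (F v)) :
    star T = T' := by
  refine ContinuousLinearMap.ext fun ξ => ext_inner_right ℂ fun η => ?_
  rw [← Amb.inner_mul, (h η).2, (h' ξ).2, ← integral_inner (h η).1, ← inner_conj_symm,
    ← integral_inner (h' ξ).1, ← integral_conj]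
  refine integral_congr_ae (ae_of_all _ fun v => ?_)
  simp only [inner_smul_right, map_mul, Complex.conj_ofReal, inner_conj_symm]
  rw [Amb.inner_mul (F v)]

theorem exists_int [OpensMeasurableSpace G] [SecondCountableTopology G]
    [IsFiniteMeasureOnCompacts μ] (hχ : Bump μ χ) (hF : ∀ ξ, Continuous fun v => F v ξ) {c : ℝ}
    (hc : ∀ v, ‖F v‖ ≤ c) : ∃ T, IsInt μ χ T F := by
  have hi : ∀ ξ, Integrable (fun v => (χ v : ℂ) • F v ξ) μ := fun ξ =>
    ((Complex.continuous_ofReal.comp hχ.cont).smul (hF ξ)).integrable_of_hasCompactSupport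
      (hχ.cpt.mono fun v hv e => hv (by simp [e]))
  let L : 𝒦 →ₗ[ℂ] 𝒦 :=
    { toFun := fun ξ => ∫ v, (χ v : ℂ) • F v ξ ∂μ
      map_add' := fun ξ η => by
        simp only [map_add, smul_add]; exact integral_add (hi ξ) (hi η)
      map_smul' := fun a ξ => by
        simp only [map_smul, RingHom.id_apply, smul_comm (χ _ : ℂ) a]; exact integral_smul _ _ }
  exact ⟨L.mkContinuous c fun ξ => hχ.norm_le fun v _ =>
    ((F v).le_opNorm ξ).trans (mul_le_mul_of_nonneg_right (hc v) (norm_nonneg _)),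
    fun ξ => ⟨hi ξ, rfl⟩⟩

end bump

namespace Amb

variable {G Γ 𝒦 : Type} [Group G] [TopologicalSpace G] [Group Γ] [NormedAddCommGroup 𝒦]
  [InnerProductSpace ℂ 𝒦] [CompleteSpace 𝒦] (A : Amb G Γ 𝒦)

/-- conjugation of an operator of degree `g` by the shifts -/
noncomputable def cj (g : G) (x : 𝒦 →L[ℂ] 𝒦) (v : G) : 𝒦 →L[ℂ] 𝒦 :=
  A.SH v * x * A.SH (g⁻¹ * v * g)⁻¹

variable {A} {g : G} {x T : 𝒦 →L[ℂ] 𝒦} {J : ℝ}

theorem cont_SH {X : Type} [TopologicalSpace X] {f : X → G} {φ : X → 𝒦} (hf : Continuous f)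
    (hφ : Continuous φ) : Continuous fun v => A.SH (f v) (φ v) := by
  have h : Continuous fun q : G × 𝒦 => A.SH q.1 q.2 :=
    continuous_prod_of_continuous_lipschitzWith' _ 1 (fun a =>
      (A.SH a).lipschitz.weaken (by exact_mod_cast norm_SH a)) A.SH_cont
  exact h.comp (hf.prodMk hφ)

theorem norm_cj (g : G) (x : 𝒦 →L[ℂ] 𝒦) (v : G) : ‖A.cj g x v‖ ≤ ‖x‖ :=
  (norm_mul_le _ _).trans ((mul_le_of_le_one_right (norm_nonneg _) (norm_SH _)).trans
    ((norm_mul_le _ _).trans (mul_le_of_le_one_left (norm_nonneg _) (norm_SH _))))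

theorem cj_cj (g : G) (x : 𝒦 →L[ℂ] 𝒦) (v w : G) : A.cj g (A.cj g x v) w = A.cj g x (w * v) := by
  have e : (g⁻¹ * (w * v) * g)⁻¹ = (g⁻¹ * v * g)⁻¹ * (g⁻¹ * w * g)⁻¹ := by group
  rw [cj, cj, cj, e, ← SH_mul, ← SH_mul]; simp only [mul_assoc]

theorem Deg.cj (h : A.Deg g x) (v : G) : A.Deg g (A.cj g x v) :=
  (((deg_SH v).mul h).mul (deg_SH _)).cast (by group)

theorem Band.cj (h : A.Band J x) (v : G) : A.Band J (A.cj g x v) :=
  ((band_SH v).zero_mul h).mul0 (band_SH _)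

variable [MeasurableSpace G] {μ : Measure G} {χ : G → ℝ} {F : G → 𝒦 →L[ℂ] 𝒦}

theorem deg_int (hχ : Bump μ χ) (h : IsInt μ χ T F) (hF : ∀ v, A.Deg g (F v)) : A.Deg g T :=
  fun w hw => sub_eq_zero.1 ((((h.mul_right _).mul_right w).sub
    ((h.mul_right _).mul_left w)).eq_zero hχ fun v => sub_eq_zero.2 (hF v w hw))

theorem band_int (hχ : Bump μ χ) (h : IsInt μ χ T F) (hF : ∀ v, A.Band J (F v)) : A.Band J T :=
  fun X Y hXY => ((h.mul_left _).mul_right _).eq_zero hχ fun v => hF v X Y hXY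

theorem n2_int (hχ : Bump μ χ) (h : IsInt μ χ T F) {c : ℝ} (hc : ∀ v, χ v ≠ 0 → A.n2 (F v) ≤ c) :
    A.n2 T ≤ c := h.apply_le hχ _ hc

variable [IsTopologicalGroup G] [BorelSpace G] [SecondCountableTopology G] [μ.IsHaarMeasure]

theorem exists_sm (hχ : Bump μ χ) (g : G) (x : 𝒦 →L[ℂ] 𝒦) : ∃ T, IsInt μ χ T (A.cj g x) ∧
    IsInt μ χ (star T) fun v => star (A.cj g x v) := by
  obtain ⟨T, hT⟩ := exists_int hχ (F := A.cj g x) (fun ξ => cont_SH continuous_id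
    (x.continuous.comp (cont_SH (by fun_prop) continuous_const))) (norm_cj g x)
  obtain ⟨T', hT'⟩ := exists_int hχ (F := fun v => star (A.cj g x v)) (c := ‖x‖) (fun ξ => by
    simp only [cj, star_mul, A.SH_star, ContinuousLinearMap.mul_apply]
    exact cont_SH (by fun_prop) ((star x).continuous.comp
      (cont_SH (by fun_prop) continuous_const))) fun v => by rw [norm_star]; exact norm_cj g x v
  exact ⟨T, hT, by rw [hT.star hT']; exact hT'⟩

theorem lip_sm (hχ : Bump μ χ) (h : IsInt μ χ T (A.cj g x)) (hx : ‖x‖ ≤ 1) (w : G) :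
    ‖A.cj g T w - T‖ ≤ ∫ v, |χ (w⁻¹ * v) - χ v| ∂μ := by
  refine ContinuousLinearMap.opNorm_le_bound _ (integral_nonneg fun _ => abs_nonneg _) fun ξ => ?_
  have h1 : IsInt μ χ (A.cj g T w) fun v => A.cj g x (w * v) := by
    have := (h.mul_left (A.SH w)).mul_right (A.SH (g⁻¹ * w * g)⁻¹)
    simp only [← cj_cj]
    exact this
  have e1 : ∫ v, (χ v : ℂ) • A.cj g x (w * v) ξ ∂μ =
      ∫ v, (χ (w⁻¹ * v) : ℂ) • A.cj g x v ξ ∂μ := by
    rw [← integral_mul_left_eq_self (fun v => (χ (w⁻¹ * v) : ℂ) • A.cj g x v ξ) w]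
    simp only [inv_mul_cancel_left]
  have i1 : Integrable (fun v => (χ (w⁻¹ * v) : ℂ) • A.cj g x v ξ) μ := by
    have := (h1 ξ).1.comp_mul_left w⁻¹
    simpa only [mul_inv_cancel_left] using this
  have i2 : Integrable (fun v => |χ (w⁻¹ * v) - χ v|) μ :=
    ((hχ.int.comp_mul_left w⁻¹).sub hχ.int).abs
  rw [ContinuousLinearMap.sub_apply, (h1 ξ).2, (h ξ).2, e1, ← integral_sub i1 (h ξ).1,
    ← integral_mul_const]
  refine norm_integral_le_of_norm_le (i2.mul_const _) (ae_of_all _ fun v => ?_)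
  rw [← sub_smul, norm_smul, ← Complex.ofReal_sub, Complex.norm_real, Real.norm_eq_abs]
  exact mul_le_mul_of_nonneg_left (((A.cj g x v).le_opNorm ξ).trans
    (mul_le_of_le_one_left (norm_nonneg _) ((norm_cj g x v).trans hx))) (abs_nonneg _)

theorem _root_.Vale.Agent.P092ST.Bump.tv_le (hχ : Bump μ χ) (w : G) :
    ∫ v, |χ (w⁻¹ * v) - χ v| ∂μ ≤ 2 := by
  have i1 := hχ.int.comp_mul_left w⁻¹
  calc _ ≤ ∫ v, χ (w⁻¹ * v) + χ v ∂μ := integral_mono ((i1.sub hχ.int).abs) (i1.add hχ.int)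
        fun v => (abs_sub _ _).trans (by
          rw [abs_of_nonneg (hχ.pos _), abs_of_nonneg (hχ.pos _)])
    _ = 2 := by
      rw [integral_add i1 hχ.int, integral_mul_left_eq_self χ w⁻¹, hχ.one]; norm_num

end Amb

end Vale.Agent.P092ST
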