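import Vale.Agent.P092ST.Rat
import Vale.Agent.P092ST.Int

/-!
P092 (helper42), block B3: the statements of the blocks of the core.
-/

open scoped InnerProductSpace ENNReal
open MeasureTheory Filter Topology

namespace Vale.Agent.P092ST

namespace Amb

variable {G Γ 𝒦 : Type} [Group G] [TopologicalSpace G] [Group Γ] [NormedAddCommGroup 𝒦]
  [InnerProductSpace ℂ 𝒦] [CompleteSpace 𝒦] (A : Amb G Γ 𝒦)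

/-- free room -/
structure Room (f : 𝒦 →L[ℂ] 𝒦) : Prop where
  deg : A.Deg 1 f
  iso : star f * f = 1
  sh : ∀ g, A.SH g * f = f * A.SH g
  pj : ∀ X, f * A.Pj X = A.Pj X * f

/-- the defect of a shift -/
noncomputable def df (ω : 𝒦 →L[ℂ] 𝒦) (v : G) : ℝ := A.n2 (A.SH v * ω - ω * A.V v)

/-- one level of the recursion -/
structure Lev (ρ : G → ℝ) (b : G) (ω f y : 𝒦 →L[ℂ] 𝒦) (ε J C : ℝ) : Prop where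
  iso : A.Iso ω
  room : A.Room f
  orth : star f * ω = 0
  let' : A.Let ω y b ε
  band : A.Band J y
  lip : ∀ v, A.df ω v ≤ C * ρ v

/-- the output of the averaging step -/
structure Out (ω ωh ω' x ι : 𝒦 →L[ℂ] 𝒦) (b : G) (a E B : ℝ) : Prop where
  iso : A.Iso ωh
  deg : A.Deg 1 ω'
  col : ω' * A.V 1 = ω'
  nrm : ‖ω'‖ ≤ 1
  cl : A.n2 (ω' - ωh) ≤ a
  fine : A.n2 (star ω' * ω' - A.V 1) ≤ E
  two : A.Two ωh x b a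
  one : A.One ω' x b E
  band : A.Band B x
  ideg : A.Deg 1 ι
  inrm : ‖ι‖ ≤ 1
  iband : A.Band B ι
  il : A.n2 (ι * ω - ωh) ≤ a
  ir : A.n2 (star ι * ωh - ω) ≤ a

/-- tiny shifts -/
def Tiny (ω : 𝒦 →L[ℂ] 𝒦) (ε : ℝ) (v : G) : Prop := A.One ω (A.SH v) v (ε ^ 2)

/-- **STEP**: the averaging step -/
def Step [MeasurableSpace G] (μ : Measure G) : Prop :=
  ∀ (Z : Type) [Fintype Z] [Nonempty Z] (ω y : 𝒦 →L[ℂ] 𝒦) (b : G) (h : Z → G)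
    (wd : Z → List (G × Bool)) (χ : G → ℝ) (θ ε E em s J K : ℝ) (m r : ℕ),
    A.Iso ω → A.Let ω y b ε → A.Band J y → 0 ≤ J → Par θ ε E em s → A.Mix θ h →
    (∀ z, b * h z = h z * b) → (∀ z, wp (wd z) = h z) → (∀ z, (wd z).length ≤ m) → Bump μ χ →
    (∀ z, ∀ a ∈ wd z, A.Tiny ω ε (sv b r 1 a) ∧ ∀ u, A.Tiny ω ε (sv b r (h u) a)) →
    (∀ v, χ v ≠ 0 → A.Tiny ω ε v ∧ ∀ z, A.Tiny ω ε ((h z)⁻¹ * v * h z)) →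
    4 * m * (2 * r + 1) + 10 ≤ K → 2 * K * ε ≤ em →
    ∃ ωh ω' x ι, A.Out ω ωh ω' x ι b (K * ε) (K * E) (K * J) ∧
      ∀ w, ‖A.SH w * ι * A.SH w⁻¹ - ι‖ ≤ ∫ v, |χ (w⁻¹ * v) - χ v| ∂μ ∧
        ∀ t, (∀ u, A.df ω ((h u)⁻¹ * w * h u) ≤ t) →
          A.df ω' w ≤ ∫ v, |χ (w⁻¹ * v) - χ v| ∂μ + t

/-- **FIX**: gauge fixing -/
def Fix : Prop :=
  ∀ (ω f ωh ω' x ι : 𝒦 →L[ℂ] 𝒦) (b : G) (a E B : ℝ) (N : ℕ), A.Iso ω → A.Room f →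
    star f * ω = 0 → A.Out ω ωh ω' x ι b a E B → a ≤ 1 → 0 ≤ B →
    ∃ ω1 f1 x1, A.Iso ω1 ∧ A.Room f1 ∧ star f1 * ω1 = 0 ∧ A.n2 (ω1 - ω) ≤ 10 * a + 2 * E ∧
      A.Two ω1 x1 b (3 * a + 4 * E + 12 * 3⁻¹ ^ N) ∧ A.One ω1 x1 b (5 * E + 6 * 3⁻¹ ^ N) ∧
      A.Band ((4 * N + 5) * B) x1 ∧
      ∀ w t, ‖A.SH w * ι * A.SH w⁻¹ - ι‖ ≤ t → A.df ω' w ≤ t → A.df ω w ≤ t → A.df ω1 w ≤ 43 * t

/-- **JF**: a banded approximation of the range projection -/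
def JF : Prop :=
  ∃ (S : Finset G) (R e0 κ : ℝ), 0 ≤ R ∧ 0 < e0 ∧ 1 ≤ κ ∧
    ∀ (α : Type) [Fintype α] [Nonempty α] (ω w : 𝒦 →L[ℂ] 𝒦) (c : α → G) (Y : α → 𝒦 →L[ℂ] 𝒦)
      (L : G → 𝒦 →L[ℂ] 𝒦) (e B : ℝ) (m : ℕ), A.Iso ω → A.Iso w →
      (∀ X, w * A.Pj X = A.Pj X * w) → A.n2 (ω - w) ≤ e0 → A.Mix e c →
      (∀ i, A.Two ω (Y i) (c i) e0 ∧ A.One ω (Y i) (c i) e ∧ A.Band B (Y i)) →
      (∀ g ∈ S, A.One ω (L g) g e ∧ A.Band B (L g)) → R ≤ B → 0 < e → e ≤ e0 → 1 ≤ m →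
      2⁻¹ ^ m ≤ e → ∃ P, A.Two ω P 1 (κ * m * e) ∧ A.Band (κ * m ^ 2 * B) P

/-- **UP**: from one level to the next -/
def Up (ρ : G → ℝ) (b : G) : Prop :=
  ∃ κ e0 : ℝ, 2 ≤ κ ∧ 0 < e0 ∧ ∀ (ω f y w : 𝒦 →L[ℂ] 𝒦) (l Λ J : ℝ), A.Iso w →
    (∀ X, w * A.Pj X = A.Pj X * w) → A.Lev ρ b ω f y (Real.exp (-8 * l)) J (Real.exp Λ) →
    1 ≤ l → l ≤ Λ → κ ≤ J → κ * Λ ^ 7 ≤ Real.exp l → A.n2 (ω - w) + Real.exp (-l) ≤ e0 →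
    ∃ ω' f' y', A.Lev ρ b ω' f' y' (Real.exp (-9 * l)) (κ * Λ ^ 7 * J) (Real.exp (κ * Λ)) ∧
      A.n2 (ω' - ω) ≤ Real.exp (-l)

end Amb

end Vale.Agent.P092ST
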