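import Vale.Agent.P092ST.Frame
import Vale.Agent.P092FX.Fix
import Vale.Agent.P092JF.Main
import Vale.Agent.P092NW.Up
import Vale.Agent.P092SL.Rec

/-!
P092 (helper42), block B3: the abstract core (strong tails).
-/

namespace Vale.Agent.P092ST

/-- **Strong tails.** -/
theorem core : CoreStmt := fun _ _ _ _ _ _ _ _ _ _ _ μ _ _ _ _ _ A D h0 hK hG hE =>
  P092SL.lim D h0 hK (P092NW.up D (A.step μ) A.fix (P092JF.jf hE) hG)

end Vale.Agent.P092ST
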