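import Vale.Agent.P092ST.Hs

/-!
P092 (helper42), block B3: defects, mixing families and the edge lemma.
-/

set_option linter.all false

open scoped InnerProductSpace ENNReal ComplexConjugate
open MeasureTheory Filter Topology

namespace Vale.Agent.P092ST

namespace Amb

variable {G Γ 𝒦 : Type} [Group G] [TopologicalSpace G] [Group Γ] [NormedAddCommGroup 𝒦]
  [InnerProductSpace ℂ 𝒦] [CompleteSpace 𝒦] (A : Amb G Γ 𝒦)

/-- isometric columns -/
structure Iso (ω : 𝒦 →L[ℂ] 𝒦) : Prop where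
  deg : A.Deg 1 ω
  iso : star ω * ω = A.V 1

/-- the representation in the gauge `ω` -/
noncomputable def ζ (ω : 𝒦 →L[ℂ] 𝒦) (g : G) : 𝒦 →L[ℂ] 𝒦 := ω * A.V g * star ω

/-- one-sided defects -/
structure One (ω x : 𝒦 →L[ℂ] 𝒦) (g : G) (e : ℝ) : Prop where
  deg : A.Deg g x
  nrm : ‖x‖ ≤ 1
  l : A.n2 (x * ω - ω * A.V g) ≤ e
  r : A.n2 (star x * ω - ω * A.V g⁻¹) ≤ e

/-- two-sided defects -/
structure Two (ω x : 𝒦 →L[ℂ] 𝒦) (g : G) (e : ℝ) : Prop where
  deg : A.Deg g x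
  nrm : ‖x‖ ≤ 1
  hs : A.HS (x - A.ζ ω g)
  le : A.hs (x - A.ζ ω g) ≤ e

/-- the action on the corner -/
noncomputable def σ (g : G) (D : 𝒦 →L[ℂ] 𝒦) : 𝒦 →L[ℂ] 𝒦 := A.V g * D * A.V g⁻¹

/-- mixing families -/
def Mix {α : Type} [Fintype α] (θ : ℝ) (g : α → G) : Prop :=
  ∀ D, A.Deg 1 D → A.Cor D → A.n2 (av (fun a => A.σ (g a) D) - A.τ D • A.V 1) ≤ θ * A.n2 D

variable {A} {g h : G} {ω a x y z D : 𝒦 →L[ℂ] 𝒦} {e e' θ : ℝ}

theorem Iso.col (hω : A.Iso ω) : ω * A.V 1 = ω := by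
  have h : star (ω - ω * A.V 1) * (ω - ω * A.V 1) = 0 := by
    rw [star_sub, star_mul, star_p]
    calc _ = star ω * ω - star ω * ω * A.V 1 - A.V 1 * (star ω * ω) +
          A.V 1 * (star ω * ω) * A.V 1 := by noncomm_ring
      _ = 0 := by rw [hω.iso]; simp only [p_mul_V]; abel
  exact (sub_eq_zero.1 (CStarRing.star_mul_self_eq_zero_iff _ |>.1 h)).symm

theorem Iso.nrm (hω : A.Iso ω) : ‖ω‖ ≤ 1 := norm_le_of_star (by rw [hω.iso]; exact norm_p)

theorem Iso.nrm' (hω : A.Iso ω) : ‖star ω‖ ≤ 1 := by rw [norm_star]; exact hω.nrm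

theorem Iso.row (hω : A.Iso ω) : A.V 1 * star ω = star ω := by
  rw [← star_p, ← star_mul, hω.col]

theorem Iso.iso' (hω : A.Iso ω) (x : 𝒦 →L[ℂ] 𝒦) : star ω * (ω * x) = A.V 1 * x := by
  rw [← mul_assoc, hω.iso]

theorem Iso.n2_mul (hω : A.Iso ω) (hx : A.V 1 * x = x) : A.n2 (ω * x) = A.n2 x := by
  refine (n2_mul1 hω.nrm x).antisymm ?_
  have := n2_mul1 (A := A) hω.nrm' (ω * x)
  rwa [hω.iso', hx] at this

theorem n2_p1 : A.n2 (A.V 1) = 1 := by rw [n2, A.Ω_zero, A.Ω_norm]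

theorem Iso.n2_eq (hω : A.Iso ω) : A.n2 ω = 1 := by
  have := hω.n2_mul (p_mul_V 1)
  rwa [hω.col, n2_p1] at this

theorem Iso.degV (hω : A.Iso ω) (g : G) : A.Deg g (ω * A.V g) := hω.deg.one_mul (deg_V g)

theorem Iso.deg_ζ (hω : A.Iso ω) (g : G) : A.Deg g (A.ζ ω g) := (hω.degV g).mul1 hω.deg.star1

theorem Iso.norm_ζ (hω : A.Iso ω) (g : G) : ‖A.ζ ω g‖ ≤ 1 :=
  norm_mul_le1 (norm_mul_le1 hω.nrm (norm_V g)) hω.nrm'

theorem Iso.ζ_mul (hω : A.Iso ω) (g : G) : A.ζ ω g * ω = ω * A.V g := by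
  rw [ζ, mul_assoc, hω.iso, col_p]

theorem star_ζ (ω : 𝒦 →L[ℂ] 𝒦) (g : G) : star (A.ζ ω g) = A.ζ ω g⁻¹ := by
  rw [ζ, ζ, star_mul, star_mul, star_star, A.V_star, mul_assoc]

theorem Iso.ζζ (hω : A.Iso ω) (g h : G) : A.ζ ω g * A.ζ ω h = A.ζ ω (g * h) := by
  rw [ζ, ζ, ζ, ← A.V_mul]
  simp only [mul_assoc]
  rw [hω.iso', ← mul_assoc (A.V 1), p_mul_V]

theorem Iso.hs_ζ (hω : A.Iso ω) (g : G) : A.HS (A.ζ ω g) :=
  (hs_col (col_p ω g)).mul_right (hω.degV g) hω.deg.star1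

theorem Iso.hs_ζ_le (hω : A.Iso ω) (g : G) : A.hs (A.ζ ω g) ≤ 1 := by
  refine ((hs_col (col_p ω g)).hs_mul_right1 (hω.degV g) hω.deg.star1 hω.nrm').trans ?_
  rw [hs_eq_n2 (col_p ω g), n2_V hω.deg, hω.n2_eq]

theorem col_sub (hx : x * A.V 1 = x) (hy : y * A.V 1 = y) : (x - y) * A.V 1 = x - y := by
  rw [sub_mul, hx, hy]

theorem Iso.col_def (hω : A.Iso ω) (x : 𝒦 →L[ℂ] 𝒦) (g : G) :
    (x * ω - ω * A.V g) * A.V 1 = x * ω - ω * A.V g :=
  col_sub (col_mul hω.col x) (col_p ω g)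

theorem One.mono (h : A.One ω x g e) (he : e ≤ e') : A.One ω x g e' :=
  ⟨h.deg, h.nrm, h.l.trans he, h.r.trans he⟩

theorem Two.mono (h : A.Two ω x g e) (he : e ≤ e') : A.Two ω x g e' :=
  ⟨h.deg, h.nrm, h.hs, h.le.trans he⟩

theorem One.nonneg (h : A.One ω x g e) : 0 ≤ e := (n2_nonneg _).trans h.l

theorem Two.nonneg (h : A.Two ω x g e) : 0 ≤ e := (hs_nonneg _).trans h.le

theorem One.cast (hx : A.One ω x g e) (eq : g = h) : A.One ω x h e := eq ▸ hx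

theorem Two.cast (hx : A.Two ω x g e) (eq : g = h) : A.Two ω x h e := eq ▸ hx

theorem One.star (h : A.One ω x g e) : A.One ω (star x) g⁻¹ e :=
  ⟨h.deg.star, by rw [norm_star]; exact h.nrm, h.r, by rw [star_star, inv_inv]; exact h.l⟩

theorem One.ddeg (hω : A.Iso ω) (h : A.One ω x g e) : A.Deg g (x * ω - ω * A.V g) :=
  (h.deg.mul1 hω.deg).sub (hω.degV g)

theorem One.l_mul (hω : A.Iso ω) (hx : A.One ω x g e) (hy : A.One ω y h e') :
    A.n2 (x * y * ω - ω * A.V (g * h)) ≤ e + e' := by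
  have e1 : x * y * ω - ω * A.V (g * h) =
      (x * ω - ω * A.V g) * A.V h + x * (y * ω - ω * A.V h) := by
    rw [← A.V_mul]; noncomm_ring
  rw [e1]
  exact (n2_add _ _).trans (add_le_add ((n2_V_le (hx.ddeg hω) h).trans hx.l)
    ((n2_mul1 hx.nrm _).trans hy.l))

theorem One.mul (hω : A.Iso ω) (hx : A.One ω x g e) (hy : A.One ω y h e') :
    A.One ω (x * y) (g * h) (e + e') :=
  ⟨hx.deg.mul hy.deg, norm_mul_le1 hx.nrm hy.nrm, hx.l_mul hω hy, by
    rw [star_mul, mul_inv_rev, add_comm]; exact hy.star.l_mul hω hx.star⟩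

theorem n2_zero : A.n2 0 = 0 := norm_zero

theorem Iso.one_id (hω : A.Iso ω) : A.One ω 1 1 0 :=
  ⟨deg_id, norm_one_le, by rw [one_mul, hω.col, sub_self, n2_zero], by
    rw [star_one, inv_one, one_mul, hω.col, sub_self, n2_zero]⟩

theorem Two.star (hω : A.Iso ω) (h : A.Two ω x g e) : A.Two ω (star x) g⁻¹ e := by
  have d := h.deg.sub (hω.deg_ζ g)
  refine ⟨h.deg.star, by rw [norm_star]; exact h.nrm, ?_, ?_⟩
  · rw [← star_ζ, ← star_sub]; exact h.hs.star d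
  · rw [← star_ζ, ← star_sub, h.hs.hs_star d]; exact h.le

theorem Two.l (hω : A.Iso ω) (h : A.Two ω x g e) : A.n2 (x * ω - ω * A.V g) ≤ e := by
  have d := h.deg.sub (hω.deg_ζ g)
  rw [← hω.ζ_mul, ← sub_mul]
  exact (h.hs.mul_right d hω.deg).n2_le.trans ((h.hs.hs_mul_right1 d hω.deg hω.nrm).trans h.le)

theorem Two.one (hω : A.Iso ω) (h : A.Two ω x g e) : A.One ω x g e :=
  ⟨h.deg, h.nrm, h.l hω, (h.star hω).l hω⟩

theorem Iso.two_ζ (hω : A.Iso ω) (g : G) : A.Two ω (A.ζ ω g) g 0 :=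
  ⟨hω.deg_ζ g, hω.norm_ζ g, by rw [sub_self]; exact hs_zero, by
    rw [sub_self, Amb.hs, vec_zero, norm_zero]⟩

theorem One.mul_two (hω : A.Iso ω) (hx : A.One ω x g e) (hy : A.Two ω y h e') :
    A.Two ω (x * y) (g * h) (e + e') := by
  have e1 : x * y - A.ζ ω (g * h) =
      (x * ω - ω * A.V g) * (A.V h * Star.star ω) + x * (y - A.ζ ω h) := by
    rw [ζ, ζ, ← A.V_mul]; noncomm_ring
  have c := hω.col_def x g
  have d2 := (deg_V h).mul1 hω.deg.star1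
  have h1 := (hs_col c).mul_right (hx.ddeg hω) d2
  refine ⟨hx.deg.mul hy.deg, norm_mul_le1 hx.nrm hy.nrm, e1 ▸ h1.add (hy.hs.mul x), ?_⟩
  rw [e1]
  refine (h1.hs_add (hy.hs.mul x)).trans (add_le_add ?_ ((hy.hs.hs_mul1 hx.nrm).trans hy.le))
  refine ((hs_col c).hs_mul_right1 (hx.ddeg hω) d2 (norm_mul_le1 (norm_V h) hω.nrm')).trans ?_
  rw [hs_eq_n2 c]; exact hx.l

theorem Two.mul_one (hω : A.Iso ω) (hx : A.Two ω x g e) (hy : A.One ω y h e') :
    A.Two ω (x * y) (g * h) (e + e') := by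
  have h1 := (hy.star.mul_two hω (hx.star hω)).star hω
  rw [← star_mul, star_star, ← mul_inv_rev, inv_inv, add_comm] at h1
  exact h1

theorem Two.HS (hω : A.Iso ω) (hx : A.Two ω x g e) : A.HS x := by
  have := hx.hs.add (hω.hs_ζ g)
  rwa [sub_add_cancel] at this

theorem Two.hs_le (hω : A.Iso ω) (hx : A.Two ω x g e) : A.hs x ≤ e + 1 := by
  have := hx.hs.hs_add (hω.hs_ζ g)
  rw [sub_add_cancel] at this
  exact this.trans (add_le_add hx.le (hω.hs_ζ_le g))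

/-! ### the corner -/

theorem Cor.col (h : A.Cor D) : D * A.V 1 = D := by
  rw [← h, mul_assoc, p_mul_V]

theorem Cor.row (h : A.Cor D) : A.V 1 * D = D := by
  rw [← h, ← mul_assoc, ← mul_assoc, p_mul_V]

theorem cor_of (h1 : A.V 1 * D = D) (h2 : D * A.V 1 = D) : A.Cor D := by rw [Cor, h1, h2]

theorem cor_star_mul (hx : x * A.V 1 = x) (hy : y * A.V 1 = y) : A.Cor (star x * y) :=
  cor_of (by rw [← mul_assoc, ← star_p, ← star_mul, hx]) (col_mul hy _)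

theorem cor_σ (g : G) (D : 𝒦 →L[ℂ] 𝒦) : A.Cor (A.σ g D) :=
  cor_of (by rw [σ, ← mul_assoc, ← mul_assoc, p_mul_V]) (col_p _ _)

theorem Deg.σ (d : A.Deg 1 D) (g : G) : A.Deg 1 (A.σ g D) :=
  (((deg_V g).mul1 d).mul (deg_V g⁻¹)).cast (mul_inv_cancel g)

theorem σ_σ (g h : G) (D : 𝒦 →L[ℂ] 𝒦) : A.σ g (A.σ h D) = A.σ (g * h) D := by
  rw [σ, σ, σ, mul_inv_rev, ← A.V_mul, ← A.V_mul]; simp only [mul_assoc]

theorem n2_σ (d : A.Deg 1 D) (g : G) : A.n2 (A.σ g D) ≤ A.n2 D :=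
  (n2_V_le ((deg_V g).mul1 d) _).trans (n2_mul1 (norm_V g) D)

theorem τ_p (D : 𝒦 →L[ℂ] 𝒦) : A.τ D = A.i0 (A.V 1) D := by
  rw [τ_eq', ← i0_p, one_mul]

theorem τ_row (D : 𝒦 →L[ℂ] 𝒦) : A.τ (A.V 1 * D) = A.τ D := by
  rw [τ_eq', i0_mul, star_p, mul_one, τ_p]

theorem τ_σ (d : A.Deg 1 D) (g : G) : A.τ (A.σ g D) = A.τ D := by
  rw [σ, τ_p, i0_V ((deg_V 1).cast (mul_inv_cancel g).symm) ((deg_V g).mul1 d), inv_inv, p_mul_V,
    i0_mul, A.V_star, V_inv_mul, τ_p]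

theorem τ_le (D : 𝒦 →L[ℂ] 𝒦) : ‖A.τ D‖ ≤ A.n2 D := by
  have := i0_le (A := A) (A.V 1) D
  rwa [n2_p1, one_mul, ← τ_p] at this

theorem τ_V1 : A.τ (A.V 1) = 1 := by rw [τ_p, i0_self, n2_p1]; simp

theorem τ_av {α : Type} [Fintype α] (f : α → 𝒦 →L[ℂ] 𝒦) : A.τ (av f) = av fun a => A.τ (f a) :=
  i0_av 1 f

theorem σ_av {α : Type} [Fintype α] (f : α → 𝒦 →L[ℂ] 𝒦) (g : G) :
    A.σ g (av f) = av fun a => A.σ g (f a) := by
  rw [σ, mul_av, av_mul]; rfl

theorem cor_av {α : Type} [Fintype α] {f : α → 𝒦 →L[ℂ] 𝒦} (h : ∀ a, A.Cor (f a)) :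
    A.Cor (av f) := by
  rw [Cor, mul_av, av_mul]; exact congrArg av (funext h)

variable {α β : Type} [Fintype α] [Fintype β]

theorem Mix.left {c : α → G} (h : A.Mix θ c) (g : G) : A.Mix θ fun a => g * c a := fun D d k => by
  have e1 : av (fun a => A.σ (g * c a) D) - A.τ D • A.V 1 =
      A.σ g (av (fun a => A.σ (c a) D) - A.τ D • A.V 1) := by
    rw [σ, mul_sub, sub_mul, mul_smul_comm, smul_mul_assoc, V_mul_p, V_mul_inv, ← σ, σ_av]
    simp only [σ_σ]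
  rw [e1]
  exact (n2_σ ((Deg.av fun a => d.σ _).sub ((deg_V 1).smul _)) g).trans (h D d k)

theorem Mix.right {c : α → G} (h : A.Mix θ c) (hθ : 0 ≤ θ) (g : G) :
    A.Mix θ fun a => c a * g := fun D d _ => by
  have h1 := h _ (d.σ g) (cor_σ g D)
  simp only [σ_σ, τ_σ d] at h1
  exact h1.trans (mul_le_mul_of_nonneg_left (n2_σ d g) hθ)

theorem Mix.congr {c c' : α → G} (h : A.Mix θ c) (e : ∀ a, c' a = c a) : A.Mix θ c' :=
  (funext e : c' = c) ▸ h

theorem Mix.mono {c : α → G} {θ' : ℝ} (h : A.Mix θ c) (hθ : θ ≤ θ') : A.Mix θ' c := fun D d k =>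
  (h D d k).trans (mul_le_mul_of_nonneg_right hθ (n2_nonneg _))

/-- products of `n` members of the family -/
def pr {p : ℕ} (F : Fin p → G) {n : ℕ} (z : Fin n → Fin p) : G := (List.ofFn fun j => F (z j)).prod

theorem mix_pr {p : ℕ} {F : Fin p → G} (hθ : 0 ≤ θ) (h : ∀ D, A.Deg 1 D → A.Cor D → A.τ D = 0 →
    ‖((p : ℂ)⁻¹ • ∑ i, A.V (F i) * D * A.V (F i)⁻¹) (A.Ω 0)‖ ≤ θ * ‖D (A.Ω 0)‖) (hp : 0 < p)
    (n : ℕ) : A.Mix (2 * θ ^ n) (pr F (n := n)) := by
  haveI : Nonempty (Fin p) := ⟨⟨0, hp⟩⟩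
  have key : ∀ (n : ℕ) D, A.Deg 1 D → A.Cor D → A.τ D = 0 →
      A.n2 (av fun z : Fin n → Fin p => A.σ (pr F z) D) ≤ θ ^ n * A.n2 D := by
    intro n
    induction n with
    | zero =>
      intro D d _ _
      rw [pow_zero, one_mul]
      exact n2_av fun z => n2_σ d _
    | succ n ih =>
      intro D d k t
      rw [av_equiv ((Equiv.prodComm _ _).trans (Fin.consEquiv fun _ => Fin p)), av_prod]
      have e1 : (fun i : Fin p => av fun z : Fin n → Fin p => A.σ (pr F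
          (((Equiv.prodComm _ _).trans (Fin.consEquiv fun _ => Fin p)) (z, i))) D) =
          fun i => A.σ (F i) (av fun z : Fin n → Fin p => A.σ (pr F z) D) := by
        funext i
        rw [σ_av]
        refine congrArg av (funext fun z => ?_)
        rw [σ_σ]
        simp [pr, List.ofFn_succ, Fin.consEquiv]
      rw [e1]
      have h1 := h (av fun z : Fin n → Fin p => A.σ (pr F z) D) (Deg.av fun z => d.σ _)
        (cor_av fun z => cor_σ _ _) (by simp only [τ_av, τ_σ d, t, av_const])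
      have h2 := mul_le_mul_of_nonneg_left (ih D d k t) hθ
      rw [av, Fintype.card_fin, pow_succ', mul_assoc]
      exact h1.trans h2
  intro D d k
  have h1 := key n (D - A.τ D • A.V 1) (d.sub ((deg_V 1).smul _))
    (cor_of (by rw [mul_sub, k.row, mul_smul_comm, p_mul_V])
      (by rw [sub_mul, k.col, smul_mul_assoc, p_mul_V]))
    (by rw [τ_eq', i0_sub, i0_smul, ← τ_eq', ← τ_eq', τ_V1, mul_one, sub_self])
  have e1 : (fun z : Fin n → Fin p => A.σ (pr F z) (D - A.τ D • A.V 1)) =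
      fun z => A.σ (pr F z) D - A.τ D • A.V 1 := funext fun z => by
    rw [σ, mul_sub, sub_mul, mul_smul_comm, smul_mul_assoc, V_mul_p, V_mul_inv, σ]
  rw [e1, av_sub, av_const] at h1
  have h2 : A.n2 (D - A.τ D • A.V 1) ≤ 2 * A.n2 D := by
    have := n2_sub (A := A) D (A.τ D • A.V 1)
    rw [n2_smul, n2_p1] at this
    linarith [τ_le (A := A) D]
  calc _ ≤ θ ^ n * (2 * A.n2 D) := h1.trans (mul_le_mul_of_nonneg_left h2 (pow_nonneg hθ n))
    _ = _ := by ring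

/-! ### the edge lemma -/

theorem hs_mul_star (dx : A.Deg 1 x) (cx : x * A.V 1 = x) :
    A.hs (x * star x) = A.n2 (star x * x) := by
  have hx := hs_col cx
  have hs' := hx.star dx
  have h0 := (hx.mul (x * star x)).ip_star hx ((dx.mul1 dx.star1).mul1 dx) dx
  have h1 : A.ip (x * star x) (x * star x) = A.ip (star x * x) (star x * x) := by
    rw [star_mul, star_mul, star_star, mul_assoc x, hx.ip_mul (hx.mul _)] at h0
    rw [(hs'.mul x).ip_mul hs', h0]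
  rw [ip_self, ip_self, Complex.ofReal_inj, hs_eq_n2 (col_mul cx _)] at h1
  exact (sq_eq_sq₀ (hs_nonneg _) (n2_nonneg _)).1 h1

/-- Hoelder inequality -/
theorem holder (ha : A.HS a) (da : A.Deg g a) (dx : A.Deg 1 x) (cx : x * A.V 1 = x) :
    A.n2 (star a * x) ^ 2 ≤ ‖a‖ * A.hs a * A.n2 (star x * x) := by
  have hx := hs_col cx
  have haa := ha.mul_right da da.star
  have daa := da.mul_star da
  have h1 : A.ip (star a * x) (star a * x) = A.ip (x * star x) (a * star a) := by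
    have h4 := hx.ip_star (hx.mul (a * star a)) dx (daa.mul1 dx)
    rw [(hx.mul _).ip_mul hx, star_star, ← mul_assoc, ← h4, star_mul, star_mul, star_star,
      (hx.star dx).ip_mul haa, star_star]
  have h2 := ip_le (A := A) (x * star x) (a * star a)
  rw [← h1, ip_self, hs_eq_n2 (col_mul cx _), hs_mul_star dx cx, Complex.norm_real,
    Real.norm_of_nonneg (sq_nonneg _)] at h2
  have h3 := ha.hs_mul_right da da.star
  rw [norm_star] at h3
  calc _ ≤ A.n2 (star x * x) * (‖a‖ * A.hs a) :=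
        h2.trans (mul_le_mul_of_nonneg_left h3 (n2_nonneg _))
    _ = _ := by ring

/-- a dominated right density -/
theorem flat (dx : A.Deg 1 x) (cx : x * A.V 1 = x) (dy : A.Deg 1 y) (cy : y * A.V 1 = y)
    (sy : star y = y) (h : ∀ ξ, ‖x ξ‖ ^ 2 ≤ (⟪ξ, y ξ⟫_ℂ).re) : A.n2 (star x * x) ≤ A.n2 y := by
  have hx := hs_col cx
  have hs' := hx.star dx
  have h1 : A.hs (x * star x) ^ 2 ≤ (A.ip (star x) (y * star x)).re :=
    hasSum_le (fun i => h _) (hs'.mul x).hasSum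
      (Complex.hasSum_re (hs'.hasSum_ip (hs'.mul y)))
  have h2 := hx.ip_star (hx.mul_right dx dy) dx (dx.mul1 dy)
  rw [star_mul, sy] at h2
  have h3 : A.ip (x * y) x = A.ip y (star x * x) := by
    rw [(hs_col cy).ip_mul hx, star_star]
  rw [h2, h3, hs_mul_star dx cx] at h1
  have h4 := (Complex.re_le_norm _).trans (ip_le (A := A) y (star x * x))
  rw [hs_eq_n2 cy, hs_eq_n2 (col_mul cx _)] at h4
  by_contra c
  rw [not_le] at c
  nlinarith [n2_nonneg (A := A) y]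

/-- **The edge lemma.** -/
theorem edge [Nonempty α] (hω : A.Iso ω) {c : α → G} (hm : A.Mix θ c) (hθ : 0 ≤ θ)
    {C : α → 𝒦 →L[ℂ] 𝒦} (hC : ∀ i, A.Two ω (C i) (c i) e) {δ : 𝒦 →L[ℂ] 𝒦} (dδ : A.Deg 1 δ)
    (cδ : δ * A.V 1 = δ) (nδ : ‖δ‖ ≤ 2) {r s t : ℝ} (hr : A.n2 δ ≤ r) (hθr : θ ≤ r)
    (ht : ‖A.i0 ω δ‖ ≤ t) (hs0 : 0 ≤ s) (hs : 6 * e ≤ s ^ 4) :
    A.n2 (av fun i => C i * δ * A.V (c i)⁻¹) ≤ t + θ * r + s * r := by
  set η := av fun i => C i * δ * A.V (c i)⁻¹ with hη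
  have r0 : 0 ≤ r := hθ.trans hθr
  have dη : A.Deg 1 η := Deg.av fun i =>
    (((hC i).deg.mul1 dδ).mul (deg_V _)).cast (mul_inv_cancel _)
  have cη : η * A.V 1 = η := by
    rw [hη, av_mul]; exact congrArg av (funext fun i => col_p _ _)
  have dD := dδ.star_mul dδ
  have kD := cor_star_mul cδ cδ
  have nD : A.n2 (star δ * δ) ≤ 2 * r :=
    (n2_mul _ _).trans (mul_le_mul (by rw [norm_star]; exact nδ) hr (n2_nonneg _) zero_le_two)
  have hY : A.n2 (star η * η) ≤ 3 * r ^ 2 := by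
    refine (flat dη cη (Deg.av fun i => dD.σ (c i)) (cor_av fun i => cor_σ _ _).col ?_
      fun ξ => ?_).trans ?_
    · rw [star_av]
      refine congrArg av (funext fun i => ?_)
      rw [σ, star_mul, star_mul, star_mul, star_star, A.V_star, A.V_star, inv_inv]
      simp only [mul_assoc]
    · rw [hη, av_apply, av_apply, inner_av]
      refine (norm_av_sq _).trans ?_
      rw [av, smul_eq_mul, ← Complex.ofReal_natCast, ← Complex.ofReal_inv, Complex.re_ofReal_mul,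
        Complex.re_sum]
      refine mul_le_mul_of_nonneg_left (Finset.sum_le_sum fun i _ => ?_) (by positivity)
      have e1 : ⟪ξ, A.σ (c i) (star δ * δ) ξ⟫_ℂ =
          ⟪δ (A.V (c i)⁻¹ ξ), δ (A.V (c i)⁻¹ ξ)⟫_ℂ := by
        simp only [σ, ContinuousLinearMap.mul_apply]
        rw [inner_mul, inner_mul (star δ), star_star, A.V_star]
      rw [e1, inner_self_eq_norm_sq_to_K]
      norm_cast
      refine pow_le_pow_left₀ (norm_nonneg _) (((C i).le_opNorm _).trans ?_) 2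
      exact mul_le_of_le_one_left (norm_nonneg _) (hC i).nrm
    · have h1 := hm _ dD kD
      have h2 := n2_add (A := A) (av (fun i => A.σ (c i) (star δ * δ)) - A.τ (star δ * δ) • A.V 1)
        (A.τ (star δ * δ) • A.V 1)
      rw [sub_add_cancel, n2_smul, n2_p1, τ_eq, i0_self, Complex.norm_real,
        Real.norm_of_nonneg (sq_nonneg _)] at h2
      rw [τ_eq, i0_self] at h1
      have h3 := pow_le_pow_left₀ (n2_nonneg (A := A) δ) hr 2
      have h4 := mul_le_mul hθr nD (n2_nonneg _) r0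
      nlinarith
  have dd := hω.deg.star_mul dδ
  have kd := cor_star_mul hω.col cδ
  have h1 : A.n2 (ω * av fun i => A.σ (c i) (star ω * δ)) ≤ t + θ * r := by
    have h1 := hm _ dd kd
    have h2 := n2_add (A := A) (av (fun i => A.σ (c i) (star ω * δ)) - A.τ (star ω * δ) • A.V 1)
      (A.τ (star ω * δ) • A.V 1)
    rw [sub_add_cancel, n2_smul, n2_p1, τ_eq] at h2
    rw [τ_eq] at h1
    have h3 := mul_le_mul_of_nonneg_left ((n2_mul1 hω.nrm' δ).trans hr) hθ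
    exact (n2_mul1 hω.nrm _).trans (by linarith)
  have h2 : ∀ i, ‖A.i0 η ((C i - A.ζ ω (c i)) * δ * A.V (c i)⁻¹)‖ ≤ (s * r) ^ 2 := fun i => by
    have n1 : ‖C i - A.ζ ω (c i)‖ ≤ 2 :=
      (norm_sub_le _ _).trans (by linarith [(hC i).nrm, hω.norm_ζ (c i)])
    have h3 := holder (hC i).hs ((hC i).deg.sub (hω.deg_ζ _)) dη cη
    have h4 : A.n2 (star (C i - A.ζ ω (c i)) * η) ≤ s ^ 2 * r := by
      refine le_of_sq_le_sq (h3.trans ?_) (by positivity)
      calc _ ≤ 2 * e * (3 * r ^ 2) :=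
            mul_le_mul (mul_le_mul n1 (hC i).le (hs_nonneg _) zero_le_two) hY (n2_nonneg _)
              (mul_nonneg zero_le_two (hC i).nonneg)
        _ ≤ _ := by nlinarith [sq_nonneg r]
    rw [mul_assoc, i0_mul]
    calc _ ≤ s ^ 2 * r * r := (i0_le _ _).trans
          (mul_le_mul h4 ((n2_V_le dδ _).trans hr) (n2_nonneg _) (by positivity))
      _ = _ := by ring
  have e1 : η = (ω * av fun i => A.σ (c i) (star ω * δ)) +
      av fun i => (C i - A.ζ ω (c i)) * δ * A.V (c i)⁻¹ := by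
    rw [mul_av, ← av_add]
    refine congrArg av (funext fun i => ?_)
    rw [σ, ζ]; noncomm_ring
  have h3 : A.n2 η ^ 2 ≤ A.n2 η * (t + θ * r) + (s * r) ^ 2 := by
    have e2 := i0_self (A := A) η
    have e3 : ‖A.i0 η η‖ = A.n2 η ^ 2 := by
      rw [e2, Complex.norm_real, Real.norm_of_nonneg (sq_nonneg _)]
    rw [← e3]
    nth_rewrite 2 [e1]
    rw [i0_add, i0_av]
    exact (norm_add_le _ _).trans (add_le_add ((i0_le _ _).trans
      (mul_le_mul_of_nonneg_left h1 (n2_nonneg _))) (norm_av_le h2))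
  by_contra c
  rw [not_le] at c
  have t0 : 0 ≤ t + θ * r := (n2_nonneg _).trans h1
  have s0 : 0 ≤ s * r := mul_nonneg hs0 r0
  nlinarith

end Amb

end Vale.Agent.P092ST
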