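import Vale.Agent.P092ST.Defs

/-!
P092 (helper42), block B3: degrees and bands.
-/

set_option linter.all false

open scoped InnerProductSpace ENNReal
open MeasureTheory Filter Topology

namespace Vale.Agent.P092ST

open Vale.Agent.P092.RC (Cm)

namespace Amb

variable {G Γ 𝒦 : Type} [Group G] [TopologicalSpace G] [Group Γ] [NormedAddCommGroup 𝒦]
  [InnerProductSpace ℂ 𝒦] [CompleteSpace 𝒦] {A : Amb G Γ 𝒦} {g h : G} {x y T : 𝒦 →L[ℂ] 𝒦}

theorem SH_mul (g h : G) : A.SH g * A.SH h = A.SH (g * h) := (map_mul _ _ _).symm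

theorem SH_inv_mul (g : G) : A.SH g⁻¹ * A.SH g = 1 := by rw [SH_mul, inv_mul_cancel, map_one]

theorem SH_mul_inv (g : G) : A.SH g * A.SH g⁻¹ = 1 := by rw [SH_mul, mul_inv_cancel, map_one]

theorem norm_le_of_star (hx : ‖star x * x‖ ≤ 1) : ‖x‖ ≤ 1 := by
  rw [CStarRing.norm_star_mul_self] at hx
  nlinarith [norm_nonneg x]

theorem norm_one_le : ‖(1 : 𝒦 →L[ℂ] 𝒦)‖ ≤ 1 := ContinuousLinearMap.norm_id_le

theorem norm_SH (g : G) : ‖A.SH g‖ ≤ 1 :=
  norm_le_of_star (by rw [A.SH_star, SH_inv_mul]; exact norm_one_le)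

theorem norm_mul_le1 (hx : ‖x‖ ≤ 1) (hy : ‖y‖ ≤ 1) : ‖x * y‖ ≤ 1 :=
  (norm_mul_le _ _).trans (mul_le_one₀ hx (norm_nonneg _) hy)

theorem p_mul_V (g : G) : A.V 1 * A.V g = A.V g := by rw [A.V_mul, one_mul]

theorem V_mul_p (g : G) : A.V g * A.V 1 = A.V g := by rw [A.V_mul, mul_one]

theorem star_p : star (A.V 1) = A.V 1 := by rw [A.V_star, inv_one]

theorem norm_proj (h1 : star x = x) (h2 : x * x = x) : ‖x‖ ≤ 1 := by
  have h := CStarRing.norm_star_mul_self (x := x)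
  rw [h1, h2] at h
  by_contra c
  rw [not_le] at c
  nlinarith

theorem norm_p : ‖A.V 1‖ ≤ 1 := norm_proj star_p (p_mul_V 1)

theorem norm_V (g : G) : ‖A.V g‖ ≤ 1 :=
  norm_le_of_star (by rw [A.V_star, A.V_mul, inv_mul_cancel]; exact norm_p)

theorem V_inv_mul (g : G) : A.V g⁻¹ * A.V g = A.V 1 := by rw [A.V_mul, inv_mul_cancel]

theorem V_mul_inv (g : G) : A.V g * A.V g⁻¹ = A.V 1 := by rw [A.V_mul, mul_inv_cancel]

theorem norm_e (n : ℕ) : ‖A.e n‖ ≤ 1 := norm_le_of_star (by rw [A.e_iso]; exact norm_one_le)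

/-! ### degrees -/

theorem cm_mul {W : Set (𝒦 →L[ℂ] 𝒦)} (hx : Cm W x) (hy : Cm W y) : Cm W (x * y) := fun w hw => by
  rw [mul_assoc, hy w hw, ← mul_assoc, hx w hw, mul_assoc]

theorem cm_star (hx : Cm A.𝓦 x) : Cm A.𝓦 (star x) := fun w hw => by
  have h := congrArg star (hx _ (A.W_star w hw))
  rw [star_mul, star_mul, star_star] at h
  exact h.symm

theorem deg_one_iff : A.Deg 1 x ↔ Cm A.𝓦 x := by
  rw [Deg, inv_one, map_one, mul_one]

theorem Deg.mul (hx : A.Deg g x) (hy : A.Deg h y) : A.Deg (g * h) (x * y) := by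
  have e : x * y * A.SH (g * h)⁻¹ =
      x * A.SH g⁻¹ * (A.SH g * (y * A.SH h⁻¹) * A.SH g⁻¹) := by
    rw [mul_inv_rev, ← SH_mul]
    simp only [mul_assoc]
    rw [← mul_assoc (A.SH g⁻¹) (A.SH g), SH_inv_mul, one_mul]
  rw [Deg, e]
  exact cm_mul hx (A.nrm _ hy g)

theorem Deg.cast (hx : A.Deg g x) (e : g = h) : A.Deg h x := e ▸ hx

theorem Deg.star (hx : A.Deg g x) : A.Deg g⁻¹ (star x) := by
  have h1 := cm_star (A.nrm _ hx g⁻¹)
  have e : Star.star (A.SH g⁻¹ * (x * A.SH g⁻¹) * A.SH g⁻¹⁻¹) = Star.star x * A.SH g⁻¹⁻¹ := by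
    rw [mul_assoc, mul_assoc, SH_mul_inv, mul_one, star_mul, A.SH_star]
  rw [e] at h1
  exact h1

theorem Deg.add (hx : A.Deg g x) (hy : A.Deg g y) : A.Deg g (x + y) := fun w hw => by
  rw [add_mul, add_mul, mul_add, hx w hw, hy w hw]

theorem Deg.smul (c : ℂ) (hx : A.Deg g x) : A.Deg g (c • x) := fun w hw => by
  rw [smul_mul_assoc, smul_mul_assoc, mul_smul_comm, hx w hw]

theorem Deg.neg (hx : A.Deg g x) : A.Deg g (-x) := by
  simpa using hx.smul (-1)

theorem Deg.sub (hx : A.Deg g x) (hy : A.Deg g y) : A.Deg g (x - y) := by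
  rw [sub_eq_add_neg]; exact hx.add hy.neg

theorem deg_zero (g : G) : A.Deg g 0 := fun w _ => by simp

theorem Deg.sum {ι : Type} {s : Finset ι} {f : ι → 𝒦 →L[ℂ] 𝒦} (h : ∀ i ∈ s, A.Deg g (f i)) :
    A.Deg g (∑ i ∈ s, f i) :=
  Finset.sum_induction f _ (fun _ _ => Deg.add) (deg_zero g) h

theorem deg_SH (g : G) : A.Deg g (A.SH g) := fun w _ => by rw [SH_mul_inv, one_mul, mul_one]

theorem deg_V (g : G) : A.Deg g (A.V g) := A.V_deg g

theorem deg_id : A.Deg 1 1 := deg_one_iff.2 fun w _ => by rw [one_mul, mul_one]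

theorem deg_e (n : ℕ) : A.Deg 1 (A.e n) := deg_one_iff.2 (A.e_cm n)

theorem Deg.mul1 (hx : A.Deg g x) (hy : A.Deg 1 y) : A.Deg g (x * y) := (hx.mul hy).cast (mul_one g)

theorem Deg.one_mul (hx : A.Deg 1 x) (hy : A.Deg g y) : A.Deg g (x * y) :=
  (hx.mul hy).cast (_root_.one_mul g)

theorem Deg.star1 (hx : A.Deg 1 x) : A.Deg 1 (Star.star x) := hx.star.cast inv_one

theorem Deg.star_mul (hx : A.Deg g x) (hy : A.Deg g y) : A.Deg 1 (Star.star x * y) :=
  (hx.star.mul hy).cast (inv_mul_cancel g)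

theorem Deg.mul_star (hx : A.Deg g x) (hy : A.Deg g y) : A.Deg 1 (x * Star.star y) :=
  (hx.mul hy.star).cast (mul_inv_cancel g)

theorem Deg.pow (hx : A.Deg g x) : ∀ n : ℕ, A.Deg (g ^ n) (x ^ n)
  | 0 => by rw [pow_zero, pow_zero]; exact deg_id
  | n + 1 => by rw [pow_succ, pow_succ]; exact (Deg.pow hx n).mul hx

theorem Deg.inv (hx : A.Deg 1 x) (h1 : x * y = 1) (h2 : y * x = 1) : A.Deg 1 y :=
  deg_one_iff.2 fun w hw => by
    have h := deg_one_iff.1 hx w hw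
    calc y * w = y * w * (x * y) := by rw [h1, mul_one]
      _ = y * (w * x) * y := by simp only [mul_assoc]
      _ = w * y := by rw [← h, ← mul_assoc, h2, _root_.one_mul]

/-! ### bands -/

variable {a b : ℝ}

theorem Band.mono (hx : A.Band a x) (hab : a ≤ b) : A.Band b x :=
  fun X Y h => hx X Y fun s hs t ht => hab.trans_lt (h s hs t ht)

theorem Band.mul (hx : A.Band a x) (hy : A.Band b y) : A.Band (a + b) (x * y) := fun X Y h => by
  set N : Set Γ := {t | ∃ s ∈ X, A.len (s * t⁻¹) ≤ a} with hN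
  have h1 : A.Pj X * x * A.Pj Nᶜ = 0 := hx _ _ fun s hs t ht => by
    by_contra c
    exact ht ⟨s, hs, not_lt.1 c⟩
  have h2 : A.Pj N * y * A.Pj Y = 0 := hy _ _ fun t ht u hu => by
    obtain ⟨s, hs, hst⟩ := ht
    have h3 := h s hs u hu
    have h4 := A.len_mul (s * t⁻¹) (t * u⁻¹)
    rw [show s * t⁻¹ * (t * u⁻¹) = s * u⁻¹ by group] at h4
    linarith
  calc A.Pj X * (x * y) * A.Pj Y = A.Pj X * x * (A.Pj N + A.Pj Nᶜ) * y * A.Pj Y := by
        rw [A.Pj_compl]; simp only [mul_one, mul_assoc]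
    _ = A.Pj X * x * (A.Pj N * y * A.Pj Y) + A.Pj X * x * A.Pj Nᶜ * y * A.Pj Y := by
        noncomm_ring
    _ = 0 := by rw [h1, h2]; simp

theorem Band.star (hx : A.Band a x) : A.Band a (star x) := fun X Y h => by
  have h1 := congrArg Star.star (hx Y X fun s hs t ht => by
    have := h t ht s hs
    rwa [← A.len_inv, mul_inv_rev, inv_inv] at this)
  rw [star_mul, star_mul, A.Pj_star, A.Pj_star, star_zero, ← mul_assoc] at h1
  exact h1

theorem Band.add (hx : A.Band a x) (hy : A.Band a y) : A.Band a (x + y) := fun X Y h => by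
  rw [mul_add, add_mul, hx X Y h, hy X Y h, add_zero]

theorem Band.smul (c : ℂ) (hx : A.Band a x) : A.Band a (c • x) := fun X Y h => by
  rw [mul_smul_comm, smul_mul_assoc, hx X Y h, smul_zero]

theorem Band.neg (hx : A.Band a x) : A.Band a (-x) := by
  simpa using hx.smul (-1)

theorem Band.sub (hx : A.Band a x) (hy : A.Band a y) : A.Band a (x - y) := by
  rw [sub_eq_add_neg]; exact hx.add hy.neg

theorem band_zero (a : ℝ) : A.Band a 0 := fun X Y _ => by simp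

theorem Band.sum {ι : Type} {s : Finset ι} {f : ι → 𝒦 →L[ℂ] 𝒦} (h : ∀ i ∈ s, A.Band a (f i)) :
    A.Band a (∑ i ∈ s, f i) :=
  Finset.sum_induction f _ (fun _ _ => Band.add) (band_zero a) h

theorem band_of_comm (h : ∀ X, x * A.Pj X = A.Pj X * x) : A.Band 0 x := fun X Y hXY => by
  have hd : Disjoint X Y := Set.disjoint_left.2 fun s hs ht => by
    have := hXY s hs s ht
    rw [mul_inv_cancel, A.len_one] at this
    exact lt_irrefl _ this
  rw [mul_assoc, h, ← mul_assoc, A.Pj_disj X Y hd, zero_mul]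

theorem band_id : A.Band 0 1 := band_of_comm fun _ => by rw [one_mul, mul_one]

theorem band_SH (g : G) : A.Band 0 (A.SH g) := band_of_comm fun X => A.Pj_SH X g

theorem band_e (n : ℕ) : A.Band 0 (A.e n) := band_of_comm fun X => A.Pj_e X n

theorem band_p : A.Band 0 (A.V 1) := band_of_comm A.Pj_p

theorem Band.mul0 (hx : A.Band a x) (hy : A.Band 0 y) : A.Band a (x * y) :=
  (hx.mul hy).mono (add_zero a).le

theorem Band.zero_mul (hx : A.Band 0 x) (hy : A.Band a y) : A.Band a (x * y) :=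
  (hx.mul hy).mono (zero_add a).le

theorem Band.pow (hx : A.Band a x) : ∀ n : ℕ, A.Band (n * a) (x ^ n)
  | 0 => by rw [pow_zero, Nat.cast_zero, MulZeroClass.zero_mul]; exact band_id
  | n + 1 => by
    rw [pow_succ]
    exact ((Band.pow hx n).mul hx).mono (by push_cast; linarith)

end Amb

/-! ### finite averages -/

/-- the average over a finite type -/
noncomputable def av {α E : Type} [Fintype α] [AddCommGroup E] [Module ℂ E] (f : α → E) : E :=
  (Fintype.card α : ℂ)⁻¹ • ∑ a, f a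

section av

variable {α β E : Type} [Fintype α] [Fintype β]

section mod

variable [AddCommGroup E] [Module ℂ E]

theorem av_const [Nonempty α] (v : E) : av (fun _ : α => v) = v := by
  rw [av, Finset.sum_const, Finset.card_univ, ← Nat.cast_smul_eq_nsmul ℂ, smul_smul,
    inv_mul_cancel₀ (Nat.cast_ne_zero.2 Fintype.card_ne_zero), one_smul]

theorem av_add (f f' : α → E) : av (fun a => f a + f' a) = av f + av f' := by
  rw [av, av, av, Finset.sum_add_distrib, smul_add]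

theorem av_sub (f f' : α → E) : av (fun a => f a - f' a) = av f - av f' := by
  rw [av, av, av, Finset.sum_sub_distrib, smul_sub]

theorem av_prod (f : α × β → E) : av f = av fun b => av fun a => f (a, b) := by
  rw [av, av, Fintype.sum_prod_type_right, Fintype.card_prod]
  simp only [av]
  rw [← Finset.smul_sum, smul_smul, Nat.cast_mul, mul_inv, mul_comm]

theorem av_equiv (φ : β ≃ α) (f : α → E) : av f = av fun b => f (φ b) := by
  rw [av, av, Fintype.card_congr φ, φ.sum_comp]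

theorem av_map {E' : Type} [AddCommGroup E'] [Module ℂ E'] (L : E →ₗ[ℂ] E') (f : α → E) :
    L (av f) = av fun a => L (f a) := by
  rw [av, av, map_smul, map_sum]

end mod

theorem norm_av_le [Nonempty α] [SeminormedAddCommGroup E] [NormedSpace ℂ E] {f : α → E} {c : ℝ}
    (h : ∀ a, ‖f a‖ ≤ c) : ‖av f‖ ≤ c := by
  have hp : (0 : ℝ) < Fintype.card α := Nat.cast_pos.2 Fintype.card_pos
  rw [av, norm_smul, norm_inv, Complex.norm_natCast, inv_mul_le_iff₀ hp]
  refine (norm_sum_le _ _).trans ((Finset.sum_le_sum fun a _ => h a).trans ?_)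
  rw [Finset.sum_const, Finset.card_univ, nsmul_eq_mul]

theorem norm_av_sq [SeminormedAddCommGroup E] [NormedSpace ℂ E] (f : α → E) :
    ‖av f‖ ^ 2 ≤ (Fintype.card α : ℝ)⁻¹ * ∑ a, ‖f a‖ ^ 2 := by
  rcases isEmpty_or_nonempty α with h | h
  · simp [av]
  have hp : (0 : ℝ) < Fintype.card α := Nat.cast_pos.2 Fintype.card_pos
  have h1 : ‖∑ a, f a‖ ^ 2 ≤ Fintype.card α * ∑ a, ‖f a‖ ^ 2 :=
    (pow_le_pow_left₀ (norm_nonneg _) (norm_sum_le _ _) 2).trans sq_sum_le_card_mul_sum_sq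
  rw [av, norm_smul, norm_inv, Complex.norm_natCast, mul_pow]
  calc _ ≤ ((Fintype.card α : ℝ)⁻¹) ^ 2 * (Fintype.card α * ∑ a, ‖f a‖ ^ 2) := by gcongr
    _ = _ := by field_simp

variable {𝒦 : Type} [NormedAddCommGroup 𝒦] [InnerProductSpace ℂ 𝒦] [CompleteSpace 𝒦]

omit [CompleteSpace 𝒦] in
theorem av_apply (f : α → 𝒦 →L[ℂ] 𝒦) (ξ : 𝒦) : av f ξ = av fun a => f a ξ := by
  rw [av, av, ContinuousLinearMap.smul_apply, ContinuousLinearMap.sum_apply]

omit [CompleteSpace 𝒦] in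
theorem av_mul (f : α → 𝒦 →L[ℂ] 𝒦) (x : 𝒦 →L[ℂ] 𝒦) : av f * x = av fun a => f a * x := by
  rw [av, av, smul_mul_assoc, Finset.sum_mul]

omit [CompleteSpace 𝒦] in
theorem mul_av (f : α → 𝒦 →L[ℂ] 𝒦) (x : 𝒦 →L[ℂ] 𝒦) : x * av f = av fun a => x * f a := by
  rw [av, av, mul_smul_comm, Finset.mul_sum]

theorem star_av (f : α → 𝒦 →L[ℂ] 𝒦) : star (av f) = av fun a => star (f a) := by
  rw [av, av, star_smul, star_sum]
  simp

omit [CompleteSpace 𝒦] in
theorem inner_av (f : α → 𝒦) (ξ : 𝒦) : ⟪ξ, av f⟫_ℂ = av fun a => ⟪ξ, f a⟫_ℂ :=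
  av_map (innerSL ℂ ξ).toLinearMap f

variable {G Γ : Type} [Group G] [TopologicalSpace G] [Group Γ] {A : Amb G Γ 𝒦}

theorem Amb.Deg.av {g : G} {f : α → 𝒦 →L[ℂ] 𝒦} (h : ∀ a, A.Deg g (f a)) : A.Deg g (av f) :=
  Amb.Deg.smul _ (Amb.Deg.sum fun a _ => h a)

theorem Amb.Band.av {J : ℝ} {f : α → 𝒦 →L[ℂ] 𝒦} (h : ∀ a, A.Band J (f a)) : A.Band J (av f) :=
  Amb.Band.smul _ (Amb.Band.sum fun a _ => h a)

end av

end Vale.Agent.P092ST
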