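import Vale.Agent.P092ST.Blocks

/-!
P092 (helper42), block B3: columns and the two halves of a frame path.
-/

set_option linter.all false

open scoped InnerProductSpace ENNReal ComplexConjugate
open MeasureTheory Filter Topology

namespace Vale.Agent.P092ST

theorem wi_wi {G : Type} [Group G] (w : List (G × Bool)) : wi (wi w) = w := by
  simp [wi, List.map_reverse, Function.comp_def]

namespace Amb

variable {G Γ 𝒦 : Type} [Group G] [TopologicalSpace G] [Group Γ] [NormedAddCommGroup 𝒦]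
  [InnerProductSpace ℂ 𝒦] [CompleteSpace 𝒦] (A : Amb G Γ 𝒦) {Z : Type} [Fintype Z]

/-- the column of a finite family -/
noncomputable def col (h : Z → G) (f : Z → 𝒦 →L[ℂ] 𝒦) : 𝒦 →L[ℂ] 𝒦 :=
  ((√(Fintype.card Z : ℝ))⁻¹ : ℝ) • ∑ z, A.e (Fintype.equivFin Z z) * (A.SH (h z) * f z)

/-- first half of a frame path -/
noncomputable def Ha (b : G) (y : 𝒦 →L[ℂ] 𝒦) (r : ℕ) (g : G) (l : List (G × Bool)) (v : G) :
    𝒦 →L[ℂ] 𝒦 := A.SH (g⁻¹ * v * g) * (y * star y * A.Mw b y r 1 l)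

/-- second half of a frame path -/
noncomputable def Hb (b : G) (y : 𝒦 →L[ℂ] 𝒦) (r : ℕ) (t : G) (w : List (G × Bool)) (v : G) :
    𝒦 →L[ℂ] 𝒦 := A.Mw b y r t (wi w) * A.SH (t⁻¹ * v * t)⁻¹

/-- all the moves of a word are tiny -/
def TW (ω : 𝒦 →L[ℂ] 𝒦) (ε : ℝ) (b : G) (r : ℕ) (H : G) (w : List (G × Bool)) : Prop :=
  ∀ a ∈ w, A.Tiny ω ε (sv b r H a)

variable {A} {h : Z → G} {f f' : Z → 𝒦 →L[ℂ] 𝒦} {ω y a a' : 𝒦 →L[ℂ] 𝒦} {b g t v g0 g1 : G}
  {θ ε E em s J c : ℝ} {m r : ℕ} {l w : List (G × Bool)}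

theorem star_col_mul (f f' : Z → 𝒦 →L[ℂ] 𝒦) :
    star (A.col h f) * A.col h f' = av fun z => star (f z) * f' z := by
  rw [col, col, av, star_smul, star_trivial, smul_mul_assoc, mul_smul_comm, smul_smul, ← mul_inv,
    Real.mul_self_sqrt (Nat.cast_nonneg _), star_sum, Finset.sum_mul_sum, ← Complex.coe_smul,
    Complex.ofReal_inv, Complex.ofReal_natCast]
  refine congrArg _ (Finset.sum_congr rfl fun z _ => ?_)
  rw [Finset.sum_eq_single z (fun z' _ hz => ?_) (by simp)]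
  · rw [star_mul, star_mul, A.SH_star, mul_assoc, ← mul_assoc (star (A.e _)), A.e_iso, one_mul,
      mul_assoc, ← mul_assoc (A.SH _), SH_inv_mul, one_mul]
  · rw [star_mul, mul_assoc, ← mul_assoc (star (A.e _)), A.e_orth _ _ fun e => hz
      ((Fintype.equivFin Z).injective (Fin.ext e)).symm, zero_mul, mul_zero]

theorem col_mul' (f : Z → 𝒦 →L[ℂ] 𝒦) (a : 𝒦 →L[ℂ] 𝒦) :
    A.col h f * a = A.col h fun z => f z * a := by
  rw [col, col, smul_mul_assoc, Finset.sum_mul]; simp only [mul_assoc]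

theorem col_sub' (f f' : Z → 𝒦 →L[ℂ] 𝒦) :
    A.col h f - A.col h f' = A.col h fun z => f z - f' z := by
  rw [col, col, col, ← smul_sub, ← Finset.sum_sub_distrib]; simp only [mul_sub]

theorem av_col {α : Type} [Fintype α] (F : α → Z → 𝒦 →L[ℂ] 𝒦) :
    (av fun i => A.col h (F i)) = A.col h fun z => av fun i => F i z := by
  simp only [col, av, mul_smul_comm, Finset.mul_sum, Finset.smul_sum]
  rw [Finset.sum_comm]
  exact Finset.sum_congr rfl fun z _ => Finset.sum_congr rfl fun i _ => smul_comm _ _ _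

theorem col_apply_le [Nonempty Z] (ξ : 𝒦) (hc : ∀ z, ‖f z ξ‖ ≤ c) : ‖A.col h f ξ‖ ≤ c := by
  have c0 : 0 ≤ c := (norm_nonneg _).trans (hc (Classical.arbitrary Z))
  refine le_of_sq_le_sq ?_ c0
  rw [← re_star_mul, star_col_mul, av_apply, inner_av]
  refine (Complex.re_le_norm _).trans (norm_av_le fun z => ?_)
  rw [ContinuousLinearMap.mul_apply, inner_mul, star_star, inner_self_eq_norm_sq_to_K, norm_pow]
  simpa using pow_le_pow_left₀ (norm_nonneg _) (hc z) 2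

theorem n2_col [Nonempty Z] (hc : ∀ z, A.n2 (f z) ≤ c) : A.n2 (A.col h f) ≤ c :=
  col_apply_le _ hc

theorem norm_col [Nonempty Z] (hc : ∀ z, ‖f z‖ ≤ 1) : ‖A.col h f‖ ≤ 1 :=
  ContinuousLinearMap.opNorm_le_bound _ zero_le_one fun ξ => col_apply_le ξ fun z =>
    ((f z).le_opNorm ξ).trans (mul_le_mul_of_nonneg_right (hc z) (norm_nonneg _))

theorem deg_col (hd : ∀ z, A.Deg ((h z)⁻¹ * t) (f z)) : A.Deg t (A.col h f) := by
  rw [col, ← Complex.coe_smul]
  exact (Deg.sum fun z _ => (deg_e _).one_mul (((deg_SH _).mul (hd z)).cast (by group))).smul _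

theorem band_col (hb : ∀ z, A.Band J (f z)) : A.Band J (A.col h f) := by
  rw [col, ← Complex.coe_smul]
  exact (Band.sum fun z _ => (band_e _).zero_mul ((band_SH _).zero_mul (hb z))).smul _

theorem SH_col (f : Z → 𝒦 →L[ℂ] 𝒦) (v : G) :
    A.SH v * A.col h f = A.col h fun z => A.SH ((h z)⁻¹ * v * h z) * f z := by
  rw [col, col, mul_smul_comm, Finset.mul_sum]
  refine congrArg _ (Finset.sum_congr rfl fun z _ => ?_)
  rw [← mul_assoc, A.e_SH, mul_assoc, ← mul_assoc (A.SH v), ← mul_assoc (A.SH (h z)), SH_mul, SH_mul,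
    show h z * ((h z)⁻¹ * v * h z) = v * h z by group]

theorem ζ_sub (da : A.Deg 1 a) (da' : A.Deg 1 a') (ca : a * A.V 1 = a) (ca' : a' * A.V 1 = a')
    (na : ‖a‖ ≤ 1) (na' : ‖a'‖ ≤ 1) (g : G) :
    A.HS (A.ζ a g - A.ζ a' g) ∧ A.hs (A.ζ a g - A.ζ a' g) ≤ 2 * A.n2 (a - a') := by
  have e : A.ζ a g - A.ζ a' g = (a - a') * (A.V g * star a) + a' * A.V g * star (a - a') := by
    rw [ζ, ζ, star_sub]; noncomm_ring
  have c := col_sub ca ca'
  have d := da.sub da'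
  have d2 := (deg_V g).mul1 da.star1
  have h1 := (hs_col c).mul_right d d2
  have h2 := ((hs_col c).star d).mul (a' * A.V g)
  have h3 := (hs_col c).hs_mul_right1 d d2 (norm_mul_le1 (norm_V g) (by rwa [norm_star]))
  have h4 := ((hs_col c).star d).hs_mul1 (norm_mul_le1 na' (norm_V (A := A) g))
  rw [(hs_col c).hs_star d] at h4
  rw [e, ← hs_eq_n2 c]
  exact ⟨h1.add h2, (h1.hs_add h2).trans (by linarith)⟩

theorem Tiny.inv (ht : A.Tiny ω ε v) : A.Tiny ω ε v⁻¹ := by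
  have := One.star ht
  rwa [A.SH_star] at this

theorem TW.wi (ht : A.TW ω ε b r g w) : A.TW ω ε b r g (wi w) := fun a ha => by
  have := (ht _ (mem_wi ha)).inv
  rwa [sv_inv, inv_inv] at this

theorem star_Ha : star (A.Ha b y r g l v) =
    A.Mw b y r 1 (wi l) * y * star y * A.SH (g⁻¹ * v * g)⁻¹ := by
  rw [Ha, star_mul, star_mul, star_mul, star_star, star_Mw, A.SH_star, mul_assoc _ y]

theorem star_Hb : star (A.Hb b y r t w v) = A.SH (t⁻¹ * v * t) * A.Mw b y r t w := by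
  rw [Hb, star_mul, star_Mw, wi_wi, A.SH_star, inv_inv]

theorem len_le (hl : l.length ≤ m) (r : ℕ) : l.length * (2 * r + 1) ≤ m * (2 * r + 1) :=
  Nat.mul_le_mul_right _ hl

theorem two_Y (hω : A.Iso ω) (hp : Par θ ε E em s) (hy : A.Let ω y b ε) (hl : l.length ≤ m)
    (hw : w.length ≤ m) (t1 : A.TW ω ε b r 1 l) (t2 : A.TW ω ε b r t w)
    (t3 : A.Tiny ω ε (g⁻¹ * v * g)) (t4 : A.Tiny ω ε (t⁻¹ * v * t)) (e1 : wp l = t)
    (e2 : wp w = g) : A.Two ω (A.Ha b y r g l v * A.Hb b y r t w v) (g⁻¹ * t)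
      ((2 * (m * (2 * r + 1)) + 4 : ℕ) * ε) := by
  have o := hy.two.one hω
  have h1 := one_Mw hω o r 1 l fun u hu => (t1 u hu).mono hp.sqε
  have h2 := one_Mw hω o r t (wi w) fun u hu => (t2.wi u hu).mono hp.sqε
  have h3 := (One.mono t3 hp.sqε).mul_two hω ((o.mul_two hω (hy.two.star hω)).mul_one hω h1)
  refine ((h3.mul_one hω (h2.mul hω (One.mono t4.inv hp.sqε))).cast ?_).mono ?_
  · rw [wp_wi, e1, e2]; group
  · have k1 : ((l.length * (2 * r + 1) : ℕ) : ℝ) ≤ (m * (2 * r + 1) : ℕ) :=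
      Nat.cast_le.2 (len_le hl r)
    have k2 : (((wi w).length * (2 * r + 1) : ℕ) : ℝ) ≤ (m * (2 * r + 1) : ℕ) :=
      Nat.cast_le.2 (len_le ((len_wi w).trans_le hw) r)
    rw [Nat.cast_add, Nat.cast_mul 2]
    push_cast at k1 k2 ⊢
    nlinarith [hp.ε0]

theorem band_Y (hy : A.Band J y) (hJ : 0 ≤ J) (hl : l.length ≤ m) (hw : w.length ≤ m) :
    A.Band ((2 * (m * (2 * r + 1)) + 2 : ℕ) * J) (A.Ha b y r g l v * A.Hb b y r t w v) := by
  refine (((band_SH _).zero_mul ((hy.mul hy.star).mul (band_Mw hy hJ r 1 l))).mul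
    ((band_Mw hy hJ r t (wi w)).mul0 (band_SH _))).mono ?_
  have k1 : ((l.length * (2 * r + 1) : ℕ) : ℝ) ≤ (m * (2 * r + 1) : ℕ) :=
    Nat.cast_le.2 (len_le hl r)
  have k2 : (((wi w).length * (2 * r + 1) : ℕ) : ℝ) ≤ (m * (2 * r + 1) : ℕ) :=
    Nat.cast_le.2 (len_le ((len_wi w).trans_le hw) r)
  rw [Nat.cast_add, Nat.cast_mul 2]
  push_cast at k1 k2 ⊢
  nlinarith

variable [Nonempty Z]

theorem Mix.lr (hm : A.Mix θ h) (hθ : 0 ≤ θ) (g0 g1 : G) {c : Z → G}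
    (e : ∀ z, c z = g0 * h z * g1) : A.Mix θ c := ((hm.left g0).right hθ g1).congr e

theorem prot_Ha (hω : A.Iso ω) (hp : Par θ ε E em s) (hy : A.Let ω y b ε) (hm : A.Mix θ h)
    (hl : l.length ≤ m) (t1 : A.TW ω ε b r 1 l) (t3 : ∀ z, A.Tiny ω ε ((h z)⁻¹ * v * h z)) :
    A.Prot ω ε E em (fun z => g0 * h z) (fun z => A.Ha b y r (h z) l v)
      (fun z => (h z)⁻¹ * v * h z * wp l) (m * (2 * r + 1) + 3) := by
  have h1 := prot_let hω hp hy (hm.lr hp.θ0 (g0 * v) 1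
    (c := fun z => g0 * h z * ((h z)⁻¹ * v * h z)) fun z => by group)
  have h2 := prot_let hω hp (hy.star hω) (hm.lr hp.θ0 (g0 * v) b
    (c := fun z => g0 * h z * ((h z)⁻¹ * v * h z) * b) fun z => by group)
  have h3 := prot_Mw hω hp hy r (H := fun _ => 1) l (l := fun z => g0 * v * h z)
    (fun g => hm.lr hp.θ0 (g0 * v) g fun z => by group) fun u hu _ => t1 u hu
  refine (((prot_small hω hp t3).mul hω hp ((h1.mul hω hp h2).mul hω hp (h3.congr
    (fun z => by group) (fun _ => rfl) fun _ => rfl))).congr (fun _ => rfl) (fun _ => rfl)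
    fun z => by group).mono hp ?_
  have := len_le hl r
  omega

theorem prot_Ha' (hω : A.Iso ω) (hp : Par θ ε E em s) (hy : A.Let ω y b ε) (hm : A.Mix θ h)
    (hl : l.length ≤ m) (t1 : A.TW ω ε b r 1 l) (t3 : ∀ z, A.Tiny ω ε ((h z)⁻¹ * v * h z)) :
    A.Prot ω ε E em (fun z => g0 * h z * g1) (fun z => star (A.Ha b y r (h z) l v))
      (fun z => ((h z)⁻¹ * v * h z * wp l)⁻¹) (m * (2 * r + 1) + 3) := by
  have h3 := prot_Mw hω hp hy r (H := fun _ => 1) (wi l) (l := fun z => g0 * h z * g1)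
    (fun g => hm.lr hp.θ0 g0 (g1 * g) fun z => by group) fun u hu _ => t1.wi u hu
  have h1 := prot_let hω hp hy (hm.lr hp.θ0 g0 (g1 * wp (wi l))
    (c := fun z => g0 * h z * g1 * 1 * (1⁻¹ * wp (wi l) * 1)) fun z => by group)
  have h2 := prot_let hω hp (hy.star hω) (hm.lr hp.θ0 g0 (g1 * wp (wi l) * b)
    (c := fun z => g0 * h z * g1 * 1 * (1⁻¹ * wp (wi l) * 1 * b)) fun z => by group)
  refine ((((h3.mul hω hp h1).mul hω hp h2).mul hω hp (prot_small hω hp fun z => (t3 z).inv)).congr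
    (fun z => by group) (fun _ => star_Ha) fun z => by rw [wp_wi]; group).mono hp ?_
  have := len_le ((len_wi l).trans_le hl) r
  omega

theorem prot_Hb (hω : A.Iso ω) (hp : Par θ ε E em s) (hy : A.Let ω y b ε) (hm : A.Mix θ h)
    (hw : w.length ≤ m) (t2 : ∀ z, A.TW ω ε b r (h z) w)
    (t3 : ∀ z, A.Tiny ω ε ((h z)⁻¹ * v * h z)) :
    A.Prot ω ε E em (fun z => g0 * h z) (fun z => A.Hb b y r (h z) w v)
      (fun z => (h z)⁻¹ * (wp w)⁻¹ * v⁻¹ * h z) (m * (2 * r + 1) + 1) := by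
  have h3 := prot_Mw hω hp hy r (H := h) (wi w) (l := fun _ => g0)
    (fun g => hm.lr hp.θ0 (g0 * g) 1 fun z => by group) fun u hu z => (t2 z).wi u hu
  refine ((h3.mul hω hp (prot_small hω hp fun z => (t3 z).inv)).congr
    (fun z => rfl) (fun _ => rfl) fun z => by rw [wp_wi]; group).mono hp ?_
  have := len_le ((len_wi w).trans_le hw) r
  omega

theorem prot_Hb' (hω : A.Iso ω) (hp : Par θ ε E em s) (hy : A.Let ω y b ε) (hm : A.Mix θ h)
    (hw : w.length ≤ m) (t2 : ∀ z, A.TW ω ε b r (h z) w)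
    (t3 : ∀ z, A.Tiny ω ε ((h z)⁻¹ * v * h z)) :
    A.Prot ω ε E em (fun z => g0 * h z) (fun z => star (A.Hb b y r (h z) w v))
      (fun z => (h z)⁻¹ * v * wp w * h z) (m * (2 * r + 1) + 1) := by
  have h3 := prot_Mw hω hp hy r (H := h) w (l := fun _ => g0 * v)
    (fun g => hm.lr hp.θ0 (g0 * v * g) 1 fun z => by group) fun u hu z => t2 z u hu
  refine (((prot_small hω hp t3).mul hω hp (h3.congr (fun z => by group) (fun _ => rfl)
    fun _ => rfl)).congr (fun z => rfl) (fun _ => star_Hb) fun z => by group).mono hp ?_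
  have := len_le hw r
  omega

end Amb

end Vale.Agent.P092ST
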