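import Vale.Agent.P092ST.Col

/-!
P092 (helper42), block B3: the averaging step.
-/

set_option linter.all false

open scoped InnerProductSpace ENNReal ComplexConjugate
open MeasureTheory Filter Topology

namespace Vale.Agent.P092ST

namespace Amb

variable {G Γ 𝒦 : Type} [Group G] [TopologicalSpace G] [Group Γ] [NormedAddCommGroup 𝒦]
  [InnerProductSpace ℂ 𝒦] [CompleteSpace 𝒦] (A : Amb G Γ 𝒦) {Z : Type} [Fintype Z]

/-- the data of a frame -/
structure Fr (ω y : 𝒦 →L[ℂ] 𝒦) (b : G) (h : Z → G) (wd : Z → List (G × Bool)) (θ ε E em s : ℝ)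
    (m r : ℕ) : Prop where
  iso : A.Iso ω
  let' : A.Let ω y b ε
  par : Par θ ε E em s
  mix : A.Mix θ h
  wp : ∀ z, wp (wd z) = h z
  len : ∀ z, (wd z).length ≤ m
  t1 : ∀ z, A.TW ω ε b r 1 (wd z)
  t2 : ∀ z u, A.TW ω ε b r (h u) (wd z)

/-- the frame path -/
noncomputable def YY (b : G) (y : 𝒦 →L[ℂ] 𝒦) (r : ℕ) (h : Z → G) (wd : Z → List (G × Bool))
    (l : List (G × Bool)) (t v : G) (z : Z) : 𝒦 →L[ℂ] 𝒦 :=
  A.Ha b y r (h z) l v * A.Hb b y r t (wd z) v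

/-- the trilinear defect -/
noncomputable def Ψ (ω a : 𝒦 →L[ℂ] 𝒦) (g : G) (h : Z → G) (b1 b2 b3 : Z → 𝒦 →L[ℂ] 𝒦) :
    𝒦 →L[ℂ] 𝒦 := av fun p : Z × Z =>
  b1 p.1 * (a * (b2 p.1 * b3 p.2) * ω * A.V (h p.2)⁻¹ - ω * A.V (h p.1)⁻¹ * A.V g)

variable {A} {h : Z → G} {wd : Z → List (G × Bool)} {ω y a : 𝒦 →L[ℂ] 𝒦} {b g t v v' v'' g0 : G}
  {θ ε E em s J c e : ℝ} {m r : ℕ} {l : List (G × Bool)} [Nonempty Z]

theorem Fr.path (F : A.Fr ω y b h wd θ ε E em s m r) (t' : ∀ z, A.Tiny ω ε ((h z)⁻¹ * v' * h z))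
    (t'' : ∀ z, A.Tiny ω ε ((h z)⁻¹ * v'' * h z)) (g0 : G) :
    A.Prot ω ε E em (fun p : Z × Z × Z => g0 * h p.2.1)
      (fun p => star (A.YY b y r h wd (wd p.2.1) (h p.2.1) v' p.1) *
        A.YY b y r h wd (wd p.2.2) (h p.2.2) v'' p.1)
      (fun p => (h p.2.1)⁻¹ * h p.2.2) (2 * (2 * (m * (2 * r + 1)) + 4)) := by
  have h1 : A.Prot ω ε E em (fun p : Z × Z × Z => g0 * h p.2.1)
      (fun p => star (A.Hb b y r (h p.2.1) (wd p.1) v'))
      (fun p => (h p.2.1)⁻¹ * v' * Vale.Agent.P092ST.wp (wd p.1) * h p.2.1)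
      (m * (2 * r + 1) + 1) :=
    Prot.snd fun z => Prot.fst fun u' =>
      (prot_Hb' (g0 := g0) F.iso F.par F.let' F.mix (F.len z) (F.t2 z) t' :)
  have h2 : A.Prot ω ε E em (fun p : Z × Z × Z => g0 * v' * h p.1 * h p.2.1)
      (fun p => star (A.Ha b y r (h p.1) (wd p.2.1) v'))
      (fun p => ((h p.1)⁻¹ * v' * h p.1 * Vale.Agent.P092ST.wp (wd p.2.1))⁻¹)
      (m * (2 * r + 1) + 3) :=
    Prot.fst fun u => (prot_Ha' (g0 := g0 * v') (g1 := h u.1) F.iso F.par F.let' F.mix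
      (F.len u.1) (F.t1 u.1) t' :)
  have h3 : A.Prot ω ε E em (fun p : Z × Z × Z => g0 * h p.1)
      (fun p => A.Ha b y r (h p.1) (wd p.2.2) v'')
      (fun p => (h p.1)⁻¹ * v'' * h p.1 * Vale.Agent.P092ST.wp (wd p.2.2))
      (m * (2 * r + 1) + 3) :=
    Prot.fst fun u =>
      (prot_Ha (g0 := g0) F.iso F.par F.let' F.mix (F.len u.2) (F.t1 u.2) t'' :)
  have h4 : A.Prot ω ε E em (fun p : Z × Z × Z => g0 * v'' * h p.1 * h p.2.2)
      (fun p => A.Hb b y r (h p.2.2) (wd p.1) v'')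
      (fun p => (h p.2.2)⁻¹ * (Vale.Agent.P092ST.wp (wd p.1))⁻¹ * v''⁻¹ * h p.2.2)
      (m * (2 * r + 1) + 1) :=
    Prot.snd fun z => Prot.snd fun u =>
      (prot_Hb (g0 := g0 * v'' * h z) F.iso F.par F.let' F.mix (F.len z) (F.t2 z) t'' :)
  simp only [F.wp] at h1 h2 h3 h4
  refine (((h1.mul F.iso F.par (h2.congr (fun p => by group) (fun _ => rfl) fun _ => rfl)).mul
    F.iso F.par ((h3.mul F.iso F.par (h4.congr (fun p => by group) (fun _ => rfl)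
      fun _ => rfl)).congr (fun p => by group) (fun _ => rfl) fun _ => rfl)).congr (fun _ => rfl)
    (fun p => by rw [YY, YY, star_mul]) fun p => by group).mono F.par (by omega)

theorem psi_eq (hc : ∀ z, g * h z = h z * g) (C : Z → 𝒦 →L[ℂ] 𝒦) (P P' : Z → Z → 𝒦 →L[ℂ] 𝒦)
    (g0 : G) : A.Ψ ω a g h C (fun u => star (A.col h (P u))) (fun u => A.col h (P' u)) =
      (av fun p : Z × Z × Z => C p.2.1 * (a * (star (P p.2.1 p.1) * P' p.2.2 p.1) * ω *
        A.V (g * ((h p.2.1)⁻¹ * h p.2.2))⁻¹ - ω) * A.V (g0 * h p.2.1)⁻¹) * A.V (g0 * g) := by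
  rw [av_prod, av_mul, Ψ]
  refine congrArg av (funext fun p => ?_)
  rw [star_col_mul, mul_av, av_mul, av_mul, av_mul,
    ← av_const (α := Z) (ω * A.V (h p.1)⁻¹ * A.V g), ← av_sub, mul_av]
  refine congrArg av (funext fun z => ?_)
  have e1 : (g * ((h p.1)⁻¹ * h p.2))⁻¹ * ((h p.1)⁻¹ * g) = (h p.2)⁻¹ := by
    calc _ = (h p.2)⁻¹ * h p.1 * (h p.1 * g)⁻¹ * g := by group
      _ = _ := by rw [← hc]; group
  have e2 : (g0 * h p.1)⁻¹ * (g0 * g) = (h p.1)⁻¹ * g := by group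
  simp only [sub_mul, mul_sub, mul_assoc, A.V_mul, e1, e2]

theorem Ψ_col (P : Z → Z → 𝒦 →L[ℂ] 𝒦) (b2 b3 : Z → 𝒦 →L[ℂ] 𝒦) :
    A.Ψ ω a g h (fun u => A.col h (P u)) b2 b3 =
      A.col h fun z => A.Ψ ω a g h (fun u => P u z) b2 b3 := by
  simp only [Ψ, col_mul', av_col]

theorem Fr.inner (F : A.Fr ω y b h wd θ ε E em s m r) (t' : ∀ z, A.Tiny ω ε ((h z)⁻¹ * v' * h z))
    (t'' : ∀ z, A.Tiny ω ε ((h z)⁻¹ * v'' * h z)) (hc : ∀ z, g * h z = h z * g) {k : ℕ}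
    (ha : A.Prot ω ε E em (fun u => g0 * h u) (fun _ => a) (fun _ => g) k)
    {C : Z → 𝒦 →L[ℂ] 𝒦} (hC : ∀ u, A.Two ω (C u) (g0 * h u) e)
    (he : e + (k + 2 * (2 * (m * (2 * r + 1)) + 4) : ℕ) * ε ≤ em) :
    A.n2 (A.Ψ ω a g h C (fun u => star (A.col h (A.YY b y r h wd (wd u) (h u) v')))
      fun u => A.col h (A.YY b y r h wd (wd u) (h u) v'')) ≤
        (k + 2 * (2 * (m * (2 * r + 1)) + 4) : ℕ) * E := by
  have h1 : A.Prot ω ε E em (fun p : Z × Z × Z => g0 * h p.2.1) (fun _ => a) (fun _ => g) k :=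
    Prot.snd fun z => Prot.fst fun u' => ha
  have h2 := h1.mul F.iso F.par ((F.path t' t'' (g0 * g)).congr
    (fun p => by rw [mul_assoc, ← hc, mul_assoc]) (fun _ => rfl) fun _ => rfl)
  rw [psi_eq hc C _ _ g0]
  refine (n2_V_le (g := 1) (Deg.av fun p => ?_) _).trans
    (h2.2 (fun p => C p.2.1) e he fun p => hC _)
  exact (((hC _).deg.mul1 (err_deg F.iso (h2.1 p).deg)).mul (deg_V _)).cast (mul_inv_cancel _)

theorem mul_Ψ (T T' : Z → 𝒦 →L[ℂ] 𝒦) : (av fun u => T u * a * T' u) *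
    (av fun u => T u * ω * A.V (h u)⁻¹) - (av fun u => T u * ω * A.V (h u)⁻¹) * A.V g =
      A.Ψ ω a g h T T' T := by
  rw [Ψ, av_equiv (Equiv.prodComm Z Z), av_prod, av_mul, av_mul, ← av_sub]
  refine congrArg av (funext fun u => ?_)
  rw [mul_av, ← av_const (α := Z) (T u * ω * A.V (h u)⁻¹ * A.V g), ← av_sub]
  refine congrArg av (funext fun u' => ?_)
  simp only [Equiv.prodComm_apply, Prod.swap, mul_sub, mul_assoc]

theorem iso_Ψ (hω : A.Iso ω) (T : Z → 𝒦 →L[ℂ] 𝒦) :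
    ω * (star (av fun u => T u * ω * A.V (h u)⁻¹) * (av fun u => T u * ω * A.V (h u)⁻¹) - A.V 1) =
      A.Ψ ω 1 1 h (fun u => A.ζ ω (h u)) (fun u => star (T u)) T := by
  rw [Ψ, av_equiv (Equiv.prodComm Z Z), av_prod, star_av, av_mul, mul_sub, mul_av, hω.col,
    ← av_const (α := Z) ω, ← av_sub]
  simp only [av_const]
  refine congrArg av (funext fun u => ?_)
  rw [mul_av, mul_av, ← av_const (α := Z) ω, ← av_sub]
  simp only [av_const]
  refine congrArg av (funext fun u' => ?_)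
  rw [mul_sub, ← mul_assoc (A.ζ _ _) _ (A.V 1), ← mul_assoc (A.ζ _ _) ω, hω.ζ_mul,
    mul_assoc ω (A.V _) (A.V _), V_mul_inv, hω.col, hω.col]
  simp only [Equiv.prodComm_apply, Prod.swap, ζ, star_mul, A.V_star, inv_inv, one_mul, mul_assoc]

section int

variable [MeasurableSpace G] {μ : Measure G} {χ : G → ℝ} {T T' : Z → 𝒦 →L[ℂ] 𝒦}
  {P P' : Z → G → 𝒦 →L[ℂ] 𝒦}

theorem psi2 (hχ : Bump μ χ) (hT : ∀ u, IsInt μ χ (T u) (P u))
    (hT' : ∀ u, IsInt μ χ (T' u) (P' u)) {C : Z → 𝒦 →L[ℂ] 𝒦} (hc : ∀ v', χ v' ≠ 0 → ∀ v'',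
      χ v'' ≠ 0 → A.n2 (A.Ψ ω a g h C (fun u => P' u v') fun u => P u v'') ≤ c) :
    A.n2 (A.Ψ ω a g h C T' T) ≤ c := by
  refine n2_int hχ (F := fun v => A.Ψ ω a g h C (fun u => P' u v) T) (IsInt.av fun p =>
    ((((((hT' p.1).mul_right _).mul_left a).mul_right ω).mul_right _).sub (hχ.const _)).mul_left _)
    fun v' hv' => ?_
  exact n2_int hχ (F := fun v => A.Ψ ω a g h C (fun u => P' u v') fun u => P u v) (IsInt.av fun p =>
    ((((((hT p.2).mul_left _).mul_left a).mul_right ω).mul_right _).sub (hχ.const _)).mul_left _)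
    (hc v' hv')

theorem psi3 (hχ : Bump μ χ) (hT : ∀ u, IsInt μ χ (T u) (P u))
    (hT' : ∀ u, IsInt μ χ (T' u) (P' u)) (hc : ∀ v, χ v ≠ 0 → ∀ v', χ v' ≠ 0 → ∀ v'', χ v'' ≠ 0 →
      A.n2 (A.Ψ ω a g h (fun u => P u v) (fun u => P' u v') fun u => P u v'') ≤ c) :
    A.n2 (A.Ψ ω a g h T T' T) ≤ c :=
  n2_int hχ (F := fun v => A.Ψ ω a g h (fun u => P u v) T' T)
    (IsInt.av fun p => (hT p.1).mul_right _) fun v hv => psi2 hχ hT hT' (hc v hv)

end int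

theorem cj_col (l : List (G × Bool)) (t v : G) :
    A.cj t (A.col h (A.YY b y r h wd l t 1)) v = A.col h (A.YY b y r h wd l t v) := by
  rw [cj, SH_col, col_mul']
  refine congrArg _ (funext fun z => ?_)
  simp only [YY, Ha, Hb, mul_one, inv_mul_cancel, inv_one, map_one, one_mul, mul_assoc]

theorem iso_col (hω : A.Iso ω) : A.Iso (A.col h fun z => ω * A.V (h z)⁻¹) :=
  ⟨deg_col fun z => (hω.degV _).cast (mul_one _).symm, by
    rw [star_col_mul, ← av_const (α := Z) (A.V 1)]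
    refine congrArg av (funext fun z => ?_)
    rw [star_mul, A.V_star, mul_assoc, hω.iso', p_mul_V, V_inv_mul]⟩

variable [MeasurableSpace G] {μ : Measure G} {χ : G → ℝ} [IsTopologicalGroup G] [BorelSpace G]
  [SecondCountableTopology G] [μ.IsHaarMeasure]

/-- the smoothed column -/
theorem Fr.sm (F : A.Fr ω y b h wd θ ε E em s m r) (hJ : A.Band J y) (J0 : 0 ≤ J) (hχ : Bump μ χ)
    (hl : l.length ≤ m) (e1 : Vale.Agent.P092ST.wp l = t) (t1 : A.TW ω ε b r 1 l)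
    (t2 : ∀ z, A.TW ω ε b r t (wd z)) (t3 : ∀ v, χ v ≠ 0 → ∀ z, A.Tiny ω ε ((h z)⁻¹ * v * h z))
    (t4 : ∀ v, χ v ≠ 0 → A.Tiny ω ε (t⁻¹ * v * t)) (o : A.Tiny ω ε 1) :
    ∃ T, IsInt μ χ T (fun v => A.col h (A.YY b y r h wd l t v)) ∧
      IsInt μ χ (star T) (fun v => star (A.col h (A.YY b y r h wd l t v))) ∧ A.Deg t T ∧ ‖T‖ ≤ 1 ∧
      A.Band ((2 * (m * (2 * r + 1)) + 2 : ℕ) * J) T ∧
      A.n2 (T * ω * A.V t⁻¹ - A.col h fun z => ω * A.V (h z)⁻¹) ≤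
        (2 * (m * (2 * r + 1)) + 4 : ℕ) * ε ∧
      A.n2 (star T * (A.col h fun z => ω * A.V (h z)⁻¹) * A.V t - ω) ≤
        (2 * (m * (2 * r + 1)) + 4 : ℕ) * ε ∧
      ∀ w, ‖A.cj t T w - T‖ ≤ ∫ v, |χ (w⁻¹ * v) - χ v| ∂μ := by
  have h0 := fun z => two_Y (v := 1) F.iso F.par F.let' hl (F.len z) t1 (t2 z)
    (by simpa using o) (by simpa using o) e1 (F.wp z)
  have h1 := fun v hv z => (two_Y F.iso F.par F.let' hl (F.len z) t1 (t2 z) (t3 v hv z) (t4 v hv)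
    e1 (F.wp z)).one F.iso
  have n0 : ‖A.col h (A.YY b y r h wd l t 1)‖ ≤ 1 := norm_col fun z => (h0 z).nrm
  obtain ⟨T, hT, hT'⟩ := exists_sm (A := A) hχ t (A.col h (A.YY b y r h wd l t 1))
  refine ⟨T, funext (cj_col (A := A) (h := h) (wd := wd) (y := y) (b := b) (r := r) l t) ▸ hT,
    by simpa only [cj_col] using hT',
    deg_int hχ hT fun v => (deg_col fun z => (h0 z).deg).cj v,
    hT.norm_le hχ zero_le_one fun v _ => (norm_cj _ _ _).trans n0,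
    band_int hχ hT fun v => (band_col fun z => band_Y hJ J0 hl (F.len z)).cj v,
    n2_int hχ (((hT.mul_right _).mul_right _).sub (hχ.const _)) fun v hv => ?_,
    n2_int hχ (((hT'.mul_right _).mul_right _).sub (hχ.const _)) fun v hv => ?_,
    lip_sm hχ hT n0⟩
  · rw [cj_col, col_mul', col_mul', col_sub']
    refine n2_col fun z => ?_
    have e : A.YY b y r h wd l t v z * ω * A.V t⁻¹ - ω * A.V (h z)⁻¹ =
        (A.YY b y r h wd l t v z * ω * A.V ((h z)⁻¹ * t)⁻¹ - ω) * A.V (h z)⁻¹ := by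
      rw [sub_mul, mul_assoc _ _ (A.V (h z)⁻¹), A.V_mul, mul_inv_rev, inv_inv,
        mul_inv_cancel_right]
    rw [e]
    exact (n2_V_le (err_deg F.iso (h1 v hv z).deg) _).trans ((h1 v hv z).err F.iso)
  · rw [cj_col, star_col_mul, av_mul, ← av_const (α := Z) ω, ← av_sub]
    simp only [av_const]
    refine n2_av fun z => ?_
    have := (h1 v hv z).star.err F.iso
    rwa [inv_inv, ← A.V_mul, ← mul_assoc, mul_assoc _ ω] at this

theorem step (A : Amb G Γ 𝒦) (μ : Measure G) [μ.IsHaarMeasure] : A.Step μ := by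
  intro Z _ _ ω y b h wd χ θ ε E em s J K m r hω hy hJ J0 hp hm hb e1 hl hχ t1 t3 hK hem
  have F : A.Fr ω y b h wd θ ε E em s m r :=
    ⟨hω, hy, hp, hm, e1, hl, fun z a ha => (t1 z a ha).1, fun z u a ha => (t1 z a ha).2 u⟩
  have o : A.Tiny ω ε 1 := by
    rw [Tiny, map_one]; exact hω.one_id.mono (sq_nonneg ε)
  choose T hT hT' dT nT bT l1 _ lT using fun u => F.sm hJ J0 hχ (hl u) (e1 u) (F.t1 u)
    (fun z => F.t2 z u) (fun v hv => (t3 v hv).2) (fun v hv => (t3 v hv).2 u) o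
  obtain ⟨ι, -, -, dι, nι, bι, l2, l3, lι⟩ := F.sm (l := []) (t := 1) hJ J0 hχ (Nat.zero_le m) rfl
    (fun _ ha => absurd ha List.not_mem_nil) F.t1 (fun v hv => (t3 v hv).2)
    (fun v hv => by simpa using (t3 v hv).1) o
  set k : ℕ := m * (2 * r + 1) with hk
  have hK' : 4 * (k : ℝ) + 10 ≤ K := by rw [hk]; push_cast; linarith
  have k0 : (0 : ℝ) ≤ k := Nat.cast_nonneg k
  have ε0 := hp.ε0
  have E0 := hp.E0
  have i1 : ((2 * k + 4 : ℕ) : ℝ) * ε ≤ K * ε := by push_cast; nlinarith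
  have hh := iso_col (h := h) hω
  set ωh := A.col h fun z => ω * A.V (h z)⁻¹ with hωh
  have da : ∀ u, A.Deg 1 (T u * ω * A.V (h u)⁻¹) := fun u =>
    (((dT u).mul1 hω.deg).mul (deg_V _)).cast (mul_inv_cancel _)
  have na : ∀ u, ‖T u * ω * A.V (h u)⁻¹‖ ≤ 1 := fun u =>
    norm_mul_le1 (norm_mul_le1 (nT u) hω.nrm) (norm_V _)
  have cω : (av fun u => T u * ω * A.V (h u)⁻¹) * A.V 1 = av fun u => T u * ω * A.V (h u)⁻¹ := by
    rw [av_mul]; exact congrArg av (funext fun u => col_p _ _)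
  have key : ∀ a g, A.Let ω a g ε → (∀ z, g * h z = h z * g) →
      A.n2 ((av fun u => T u * a * star (T u)) * (av fun u => T u * ω * A.V (h u)⁻¹) -
        (av fun u => T u * ω * A.V (h u)⁻¹) * A.V g) ≤ K * E := fun a g ha hc => by
    rw [mul_Ψ]
    refine psi3 hχ hT hT' fun v hv v' hv' v'' hv'' => ?_
    rw [Ψ_col]
    refine n2_col fun z => (F.inner (t3 v' hv').2 (t3 v'' hv'').2 hc
      (prot_let hω hp ha (hm.left (h z)⁻¹)) (fun u => two_Y hω hp hy (hl u) (hl z) (F.t1 u)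
        (F.t2 z u) ((t3 v hv).2 z) ((t3 v hv).2 u) (e1 u) (e1 z)) ?_).trans ?_
    · rw [← hk]; push_cast; nlinarith
    · rw [← hk]; push_cast; nlinarith
  have dx : A.Deg b (av fun u => T u * y * star (T u)) := Deg.av fun u =>
    (((dT u).mul hy.two.deg).mul (dT u).star).cast (by rw [← hb, mul_inv_cancel_right])
  have nx : ‖av fun u => T u * y * star (T u)‖ ≤ 1 := norm_av_le fun u =>
    norm_mul_le1 (norm_mul_le1 (nT u) hy.two.nrm) (by rw [norm_star]; exact nT u)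
  have tw : ∀ u, A.HS (T u * y * star (T u) - A.ζ ωh b) ∧
      A.hs (T u * y * star (T u) - A.ζ ωh b) ≤ K * ε := fun u => by
    obtain ⟨s1, s2⟩ := ζ_sub (da u) hh.deg (col_p _ _) hh.col (na u) hh.nrm b
    have d := (dT u).mul (hy.two.deg.sub (hω.deg_ζ b))
    have s3 := (hy.two.hs.mul (T u)).mul_right d (dT u).star
    have s4 := ((hy.two.hs.mul (T u)).hs_mul_right1 d (dT u).star
      (by rw [norm_star]; exact nT u)).trans ((hy.two.hs.hs_mul1 (nT u)).trans hy.two.le)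
    have e : T u * y * star (T u) - A.ζ ωh b = T u * (y - A.ζ ω b) * star (T u) +
        (A.ζ (T u * ω * A.V (h u)⁻¹) b - A.ζ ωh b) := by
      have e2 : (h u)⁻¹ * (b * h u) = b := by rw [hb, inv_mul_cancel_left]
      have e3 : A.ζ (T u * ω * A.V (h u)⁻¹) b = T u * A.ζ ω b * star (T u) := by
        simp only [ζ, star_mul, A.V_star, inv_inv, mul_assoc]
        rw [← mul_assoc (A.V b), A.V_mul, ← mul_assoc (A.V _), A.V_mul, e2]
      rw [e3]; noncomm_ring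
    rw [e]
    refine ⟨s3.add s1, (s3.hs_add s1).trans ?_⟩
    have := l1 u
    push_cast at this
    nlinarith
  have e4 : (av fun u => T u * y * star (T u)) - A.ζ ωh b =
      av fun u => T u * y * star (T u) - A.ζ ωh b := by rw [av_sub, av_const]
  refine ⟨ωh, av fun u => T u * ω * A.V (h u)⁻¹, av fun u => T u * y * star (T u), ι,
    ⟨hh, Deg.av da, cω, norm_av_le na, ?_, ?_, ⟨dx, nx, e4 ▸ HS.av fun u => (tw u).1,
      e4 ▸ hs_av_le (fun u => (tw u).1) fun u => (tw u).2⟩, ⟨dx, nx, key y b hy hb, ?_⟩,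
      Band.av fun u => (((bT u).mul hJ).mul (bT u).star).mono (by push_cast; nlinarith), dι, nι,
      bι.mono (by push_cast; nlinarith), ?_, ?_⟩, fun w => ⟨?_, fun t ht => ?_⟩⟩
  · rw [← av_const (α := Z) ωh, ← av_sub]
    exact n2_av fun u => (l1 u).trans i1
  · have k1 := cor_star_mul cω cω
    have e5 := hω.n2_mul (x := star (av fun u => T u * ω * A.V (h u)⁻¹) *
      (av fun u => T u * ω * A.V (h u)⁻¹) - A.V 1) (by rw [mul_sub, k1.row, p_mul_V])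
    rw [← e5, iso_Ψ hω]
    refine psi2 hχ hT hT' fun v' hv' v'' hv'' => (F.inner (g0 := 1) (t3 v' hv').2 (t3 v'' hv'').2
      (fun z => by rw [one_mul, mul_one]) (prot_one hω)
      (fun u => (hω.two_ζ (h u)).cast (one_mul _).symm) ?_).trans ?_
    · rw [← hk]; push_cast; nlinarith
    · rw [← hk]; push_cast; nlinarith
  · have := key (star y) b⁻¹ (hy.star hω) fun z => by
      rw [inv_mul_eq_iff_eq_mul, ← mul_assoc, hb, mul_inv_cancel_right]
    rw [star_av]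
    simpa only [star_mul, star_star, mul_assoc] using this
  · rw [inv_one, col_mul hω.col] at l2
    exact l2.trans i1
  · rw [col_mul hh.col] at l3
    exact l3.trans i1
  · simpa only [cj, inv_one, one_mul, mul_one] using lι w
  · rw [df, mul_av, av_mul, ← av_sub]
    refine n2_av fun u => ?_
    have e : A.SH w * (T u * ω * A.V (h u)⁻¹) - T u * ω * A.V (h u)⁻¹ * A.V w =
        (A.cj (h u) (T u) w - T u) * (A.SH ((h u)⁻¹ * w * h u) * ω * A.V (h u)⁻¹) +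
          T u * ((A.SH ((h u)⁻¹ * w * h u) * ω - ω * A.V ((h u)⁻¹ * w * h u)) * A.V (h u)⁻¹) := by
      have e2 : (h u)⁻¹ * w * h u * (h u)⁻¹ = (h u)⁻¹ * w := by group
      rw [cj]
      simp only [sub_mul, mul_sub, mul_assoc (T u), mul_assoc ω, A.V_mul, e2,
        mul_assoc (A.SH w), mul_assoc (A.SH ((h u)⁻¹ * w * h u)),
        ← mul_assoc (A.SH ((h u)⁻¹ * w * h u)⁻¹), SH_inv_mul, one_mul]
      abel
    rw [e]
    refine (n2_add _ _).trans (add_le_add ((n2_mul _ _).trans ((mul_le_of_le_one_right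
      (norm_nonneg _) ((n2_le_norm _).trans (norm_mul_le1 (norm_mul_le1 (norm_SH _) hω.nrm)
        (norm_V _)))).trans (lT u w))) ((n2_mul1 (nT u) _).trans ?_))
    exact (n2_V_le (((deg_SH _).mul1 hω.deg).sub (hω.degV _)) _).trans (ht u)

end Amb

end Vale.Agent.P092ST
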