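import Vale.Agent.P092ST.Alg

/-!
P092 (helper42), block B3: Hilbert-Schmidt elements.
-/

set_option linter.all false

open scoped InnerProductSpace ENNReal ComplexConjugate
open MeasureTheory Filter Topology

namespace Vale.Agent.P092ST

namespace Amb

variable {G Γ 𝒦 : Type} [Group G] [TopologicalSpace G] [Group Γ] [NormedAddCommGroup 𝒦]
  [InnerProductSpace ℂ 𝒦] [CompleteSpace 𝒦] (A : Amb G Γ 𝒦)

/-- Hilbert-Schmidt elements -/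
def HS (T : 𝒦 →L[ℂ] 𝒦) : Prop := Memℓp (fun i => T (A.Ω i)) 2

open Classical in
/-- the vector of a Hilbert-Schmidt element -/
noncomputable def vec (T : 𝒦 →L[ℂ] 𝒦) : lp (fun _ : ℕ => 𝒦) 2 :=
  if h : A.HS T then ⟨fun i => T (A.Ω i), h⟩ else 0

/-- the Hilbert-Schmidt norm -/
noncomputable def hs (T : 𝒦 →L[ℂ] 𝒦) : ℝ := ‖A.vec T‖

/-- the Hilbert-Schmidt scalar product -/
noncomputable def ip (S T : 𝒦 →L[ℂ] 𝒦) : ℂ := ⟪A.vec S, A.vec T⟫_ℂ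

/-- the norm of columns -/
noncomputable def n2 (T : 𝒦 →L[ℂ] 𝒦) : ℝ := ‖T (A.Ω 0)‖

/-- the scalar product of columns -/
noncomputable def i0 (S T : 𝒦 →L[ℂ] 𝒦) : ℂ := ⟪S (A.Ω 0), T (A.Ω 0)⟫_ℂ

variable {A} {g h : G} {a x y z T : 𝒦 →L[ℂ] 𝒦}

theorem hs_iff : A.HS x ↔ Summable fun i => ‖x (A.Ω i)‖ ^ 2 := by
  rw [HS, memℓp_gen_iff (by norm_num)]
  simp

theorem HS.vec_ap (hx : A.HS x) (i : ℕ) : A.vec x i = x (A.Ω i) := by
  rw [vec, dif_pos hx]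

theorem HS.hasSum (hx : A.HS x) : HasSum (fun i => ‖x (A.Ω i)‖ ^ 2) (A.hs x ^ 2) := by
  have h := lp.hasSum_norm (p := 2) (by norm_num) (A.vec x)
  simpa [hx.vec_ap, hs] using h

theorem HS.hasSum_ip (hx : A.HS x) (hy : A.HS y) :
    HasSum (fun i => ⟪x (A.Ω i), y (A.Ω i)⟫_ℂ) (A.ip x y) := by
  have h := lp.hasSum_inner (𝕜 := ℂ) (A.vec x) (A.vec y)
  simp only [hx.vec_ap, hy.vec_ap] at h
  exact h

theorem hs_nonneg (x : 𝒦 →L[ℂ] 𝒦) : 0 ≤ A.hs x := norm_nonneg _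

theorem n2_nonneg (x : 𝒦 →L[ℂ] 𝒦) : 0 ≤ A.n2 x := norm_nonneg _

theorem HS.add (hx : A.HS x) (hy : A.HS y) : A.HS (x + y) := Memℓp.add hx hy

theorem HS.smul (c : ℂ) (hx : A.HS x) : A.HS (c • x) := Memℓp.const_smul hx c

theorem HS.neg (hx : A.HS x) : A.HS (-x) := Memℓp.neg hx

theorem HS.sub (hx : A.HS x) (hy : A.HS y) : A.HS (x - y) := Memℓp.sub hx hy

theorem hs_zero : A.HS 0 := zero_memℓp

theorem HS.vec_add (hx : A.HS x) (hy : A.HS y) : A.vec (x + y) = A.vec x + A.vec y := by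
  ext i
  rw [(hx.add hy).vec_ap, lp.coeFn_add, Pi.add_apply, hx.vec_ap, hy.vec_ap]
  rfl

theorem HS.vec_sub (hx : A.HS x) (hy : A.HS y) : A.vec (x - y) = A.vec x - A.vec y := by
  ext i
  rw [(hx.sub hy).vec_ap, lp.coeFn_sub, Pi.sub_apply, hx.vec_ap, hy.vec_ap]
  rfl

theorem HS.vec_smul (hx : A.HS x) (c : ℂ) : A.vec (c • x) = c • A.vec x := by
  ext i
  rw [(hx.smul c).vec_ap, lp.coeFn_smul, Pi.smul_apply, hx.vec_ap]
  rfl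

theorem vec_zero : A.vec 0 = 0 := by
  ext i
  rw [hs_zero.vec_ap]
  rfl

theorem HS.sum {ι : Type} {s : Finset ι} {f : ι → 𝒦 →L[ℂ] 𝒦} (h : ∀ i ∈ s, A.HS (f i)) :
    A.HS (∑ i ∈ s, f i) :=
  Finset.sum_induction f _ (fun _ _ => HS.add) hs_zero h

theorem vec_sum {ι : Type} (s : Finset ι) {f : ι → 𝒦 →L[ℂ] 𝒦} (h : ∀ i, A.HS (f i)) :
    A.vec (∑ i ∈ s, f i) = ∑ i ∈ s, A.vec (f i) := by
  classical
  induction s using Finset.induction_on with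
  | empty => simp [vec_zero]
  | insert i s hi ih =>
    rw [Finset.sum_insert hi, Finset.sum_insert hi, (h i).vec_add (HS.sum fun j _ => h j), ih]

theorem HS.av {α : Type} [Fintype α] {f : α → 𝒦 →L[ℂ] 𝒦} (h : ∀ i, A.HS (f i)) : A.HS (av f) :=
  HS.smul _ (HS.sum fun i _ => h i)

theorem vec_av {α : Type} [Fintype α] {f : α → 𝒦 →L[ℂ] 𝒦} (h : ∀ i, A.HS (f i)) :
    A.vec (av f) = av fun i => A.vec (f i) := by
  rw [av, (HS.sum fun i _ => h i).vec_smul, vec_sum _ h, av]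

theorem hs_av_le {α : Type} [Fintype α] [Nonempty α] {f : α → 𝒦 →L[ℂ] 𝒦} (h : ∀ i, A.HS (f i))
    {c : ℝ} (hc : ∀ i, A.hs (f i) ≤ c) : A.hs (av f) ≤ c := by
  rw [hs, vec_av h]; exact norm_av_le hc

theorem HS.hs_add (hx : A.HS x) (hy : A.HS y) : A.hs (x + y) ≤ A.hs x + A.hs y := by
  rw [hs, hx.vec_add hy]; exact norm_add_le _ _

theorem HS.hs_sub (hx : A.HS x) (hy : A.HS y) : A.hs (x - y) ≤ A.hs x + A.hs y := by
  rw [hs, hx.vec_sub hy]; exact norm_sub_le _ _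

theorem HS.hs_smul (hx : A.HS x) (c : ℂ) : A.hs (c • x) = ‖c‖ * A.hs x := by
  rw [hs, hx.vec_smul, norm_smul, hs]

theorem HS.hs_neg (hx : A.HS x) : A.hs (-x) = A.hs x := by
  simpa using hx.hs_smul (-1)

theorem sq_le_mul (a x : 𝒦 →L[ℂ] 𝒦) (ξ : 𝒦) : ‖(a * x) ξ‖ ^ 2 ≤ ‖a‖ ^ 2 * ‖x ξ‖ ^ 2 := by
  rw [← mul_pow]
  exact pow_le_pow_left₀ (norm_nonneg _) (a.le_opNorm _) 2

theorem HS.mul (a : 𝒦 →L[ℂ] 𝒦) (hx : A.HS x) : A.HS (a * x) :=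
  hs_iff.2 (((hs_iff.1 hx).mul_left (‖a‖ ^ 2)).of_nonneg_of_le (fun _ => sq_nonneg _)
    fun _ => sq_le_mul a x _)

theorem HS.hs_mul (hx : A.HS x) (a : 𝒦 →L[ℂ] 𝒦) : A.hs (a * x) ≤ ‖a‖ * A.hs x := by
  refine le_of_sq_le_sq ?_ (mul_nonneg (norm_nonneg _) (hs_nonneg _))
  rw [mul_pow]
  exact hasSum_le (fun _ => sq_le_mul a x _) (hx.mul a).hasSum (hx.hasSum.mul_left _)

theorem HS.hs_mul1 (hx : A.HS x) (ha : ‖a‖ ≤ 1) : A.hs (a * x) ≤ A.hs x :=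
  (hx.hs_mul a).trans (mul_le_of_le_one_left (hs_nonneg _) ha)

theorem inner_mul (a : 𝒦 →L[ℂ] 𝒦) (ξ η : 𝒦) : ⟪ξ, a η⟫_ℂ = ⟪(star a : 𝒦 →L[ℂ] 𝒦) ξ, η⟫_ℂ := by
  rw [ContinuousLinearMap.star_eq_adjoint, ContinuousLinearMap.adjoint_inner_left]

theorem HS.ip_mul (hx : A.HS x) (hy : A.HS y) (a : 𝒦 →L[ℂ] 𝒦) :
    A.ip x (a * y) = A.ip (star a * x) y := by
  refine (hx.hasSum_ip (hy.mul a)).unique ?_
  have h := (hx.mul (star a)).hasSum_ip hy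
  simpa only [ContinuousLinearMap.mul_apply, ← inner_mul] using h

theorem ip_le (x y : 𝒦 →L[ℂ] 𝒦) : ‖A.ip x y‖ ≤ A.hs x * A.hs y := norm_inner_le_norm _ _

theorem ip_conj (x y : 𝒦 →L[ℂ] 𝒦) : conj (A.ip x y) = A.ip y x := inner_conj_symm _ _

theorem ip_self (x : 𝒦 →L[ℂ] 𝒦) : A.ip x x = ((A.hs x ^ 2 : ℝ) : ℂ) := by
  rw [ip, inner_self_eq_norm_sq_to_K, hs]; norm_cast

theorem re_ip_self (x : 𝒦 →L[ℂ] 𝒦) : (A.ip x x).re = A.hs x ^ 2 := by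
  rw [ip_self, Complex.ofReal_re]

theorem HS.ip_add (hy : A.HS y) (hz : A.HS z) (x : 𝒦 →L[ℂ] 𝒦) :
    A.ip x (y + z) = A.ip x y + A.ip x z := by rw [ip, hy.vec_add hz, inner_add_right, ip, ip]

theorem HS.ip_sub (hy : A.HS y) (hz : A.HS z) (x : 𝒦 →L[ℂ] 𝒦) :
    A.ip x (y - z) = A.ip x y - A.ip x z := by rw [ip, hy.vec_sub hz, inner_sub_right, ip, ip]

theorem HS.sub_ip (hy : A.HS y) (hz : A.HS z) (x : 𝒦 →L[ℂ] 𝒦) :
    A.ip (y - z) x = A.ip y x - A.ip z x := by rw [ip, hy.vec_sub hz, inner_sub_left, ip, ip]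

theorem HS.ip_smul (hy : A.HS y) (c : ℂ) (x : 𝒦 →L[ℂ] 𝒦) :
    A.ip x (c • y) = c * A.ip x y := by rw [ip, hy.vec_smul, inner_smul_right, ip]

theorem HS.H2_eq (hx : A.HS x) : A.H2 x = ENNReal.ofReal (A.hs x ^ 2) := by
  rw [H2, ← hx.hasSum.tsum_eq, ENNReal.ofReal_tsum_of_nonneg (fun _ => sq_nonneg _)
    hx.hasSum.summable]
  refine tsum_congr fun i => ?_
  rw [← ofReal_norm, ENNReal.ofReal_pow (norm_nonneg _)]

theorem hs_of_H2 (h : A.H2 x ≠ ∞) : A.HS x := by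
  have h1 : ∑' i, ((‖x (A.Ω i)‖₊ ^ 2 : NNReal) : ℝ≥0∞) ≠ ∞ := by
    simp only [ENNReal.coe_pow]
    exact h
  have h2 := NNReal.summable_coe.2 (ENNReal.tsum_coe_ne_top_iff_summable.1 h1)
  exact hs_iff.2 (by simpa using h2)

theorem HS.star (hx : A.HS x) (hd : A.Deg g x) : A.HS (star x) :=
  hs_of_H2 (by
    rw [H2, A.tr_adj g x hd]
    exact (hx.H2_eq ▸ ENNReal.ofReal_ne_top : A.H2 x ≠ ∞))

theorem HS.hs_star (hx : A.HS x) (hd : A.Deg g x) : A.hs (Star.star x) = A.hs x := by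
  have h : A.H2 (Star.star x) = A.H2 x := A.tr_adj g x hd
  rw [(hx.star hd).H2_eq, hx.H2_eq, ENNReal.ofReal_eq_ofReal_iff (sq_nonneg _) (sq_nonneg _)] at h
  exact (sq_eq_sq₀ (hs_nonneg _) (hs_nonneg _)).1 h

theorem HS.re_star (hx : A.HS x) (hy : A.HS y) (dx : A.Deg g x) (dy : A.Deg g y) :
    (A.ip (Star.star x) (Star.star y)).re = (A.ip x y).re := by
  have h1 := norm_add_sq (𝕜 := ℂ) (A.vec x) (A.vec y)
  have h2 := norm_add_sq (𝕜 := ℂ) (A.vec (Star.star x)) (A.vec (Star.star y))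
  rw [← hx.vec_add hy] at h1
  rw [← (hx.star dx).vec_add (hy.star dy), ← star_add] at h2
  have e1 := (hx.add hy).hs_star (dx.add dy)
  have e2 := hx.hs_star dx
  have e3 := hy.hs_star dy
  simp only [hs] at e1 e2 e3
  rw [e1, e2, e3, h1] at h2
  simp only [RCLike.re_to_complex] at h2
  simp only [ip]
  linarith

theorem HS.ip_star (hx : A.HS x) (hy : A.HS y) (dx : A.Deg g x) (dy : A.Deg g y) :
    A.ip (Star.star x) (Star.star y) = A.ip y x := by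
  have h1 := hx.re_star hy dx dy
  have h2 := hx.re_star (hy.smul Complex.I) dx (dy.smul _)
  rw [star_smul, (hy.star dy).ip_smul, hy.ip_smul] at h2
  rw [← ip_conj x y]
  refine Complex.ext (by rw [h1, Complex.conj_re]) ?_
  simp at h2
  rw [Complex.conj_im, h2]

theorem HS.mul_right (hx : A.HS x) (dx : A.Deg g x) (da : A.Deg h a) : A.HS (x * a) := by
  have h1 := ((hx.star dx).mul (Star.star a)).star (da.star.mul dx.star)
  rwa [star_mul, star_star, star_star] at h1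

theorem HS.hs_mul_right (hx : A.HS x) (dx : A.Deg g x) (da : A.Deg h a) :
    A.hs (x * a) ≤ ‖a‖ * A.hs x := by
  rw [← (hx.mul_right dx da).hs_star (dx.mul da), star_mul, ← hx.hs_star dx, ← norm_star a]
  exact (hx.star dx).hs_mul _

theorem HS.hs_mul_right1 (hx : A.HS x) (dx : A.Deg g x) (da : A.Deg h a) (ha : ‖a‖ ≤ 1) :
    A.hs (x * a) ≤ A.hs x :=
  (hx.hs_mul_right dx da).trans (mul_le_of_le_one_left (hs_nonneg _) ha)

/-- moving a right factor -/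
theorem HS.ip_mul_right (hx : A.HS x) (hy : A.HS y) (dx : A.Deg (g * h) x) (dy : A.Deg g y)
    (da : A.Deg h a) : A.ip x (y * a) = A.ip (x * Star.star a) y := by
  have d2 : A.Deg g (x * Star.star a) := (dx.mul da.star).cast (mul_inv_cancel_right g h)
  rw [← (hy.mul_right dy da).ip_star hx (dy.mul da) dx,
    ← hy.ip_star (hx.mul_right dx da.star) dy d2, star_mul, star_mul, star_star,
    (hy.star dy).ip_mul (hx.star dx)]

/-! ### columns -/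

theorem col_succ (hx : x * A.V 1 = x) (i : ℕ) : x (A.Ω (i + 1)) = 0 := by
  rw [← hx, ContinuousLinearMap.mul_apply, A.Ω_succ, map_zero]

theorem hs_col (hx : x * A.V 1 = x) : A.HS x :=
  hs_iff.2 (summable_of_ne_finset_zero (s := {0}) fun i hi => by
    obtain ⟨j, rfl⟩ := Nat.exists_eq_succ_of_ne_zero (by simpa using hi)
    simp [col_succ hx])

theorem ip_col (hx : x * A.V 1 = x) (hy : A.HS y) : A.ip x y = A.i0 x y := by
  refine ((hs_col hx).hasSum_ip hy).unique (hasSum_single 0 fun i hi => ?_)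
  obtain ⟨j, rfl⟩ := Nat.exists_eq_succ_of_ne_zero hi
  simp [col_succ hx]

theorem ip_col' (hx : A.HS x) (hy : y * A.V 1 = y) : A.ip x y = A.i0 x y := by
  rw [← ip_conj, ip_col hy hx, i0, i0, inner_conj_symm]

theorem i0_self (x : 𝒦 →L[ℂ] 𝒦) : A.i0 x x = ((A.n2 x ^ 2 : ℝ) : ℂ) := by
  rw [i0, inner_self_eq_norm_sq_to_K, n2]; norm_cast

theorem hs_eq_n2 (hx : x * A.V 1 = x) : A.hs x = A.n2 x := by
  have h := ip_col hx (hs_col hx)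
  rw [ip_self, i0_self, Complex.ofReal_inj] at h
  exact (sq_eq_sq₀ (hs_nonneg _) (n2_nonneg _)).1 h

theorem n2_p (x : 𝒦 →L[ℂ] 𝒦) : A.n2 (x * A.V 1) = A.n2 x := by
  rw [n2, ContinuousLinearMap.mul_apply, A.Ω_zero, n2]

theorem col_p (x : 𝒦 →L[ℂ] 𝒦) (g : G) : x * A.V g * A.V 1 = x * A.V g := by
  rw [mul_assoc, V_mul_p]

theorem col_mul (hx : x * A.V 1 = x) (a : 𝒦 →L[ℂ] 𝒦) : a * x * A.V 1 = a * x := by
  rw [mul_assoc, hx]

theorem HS.n2_le (hx : A.HS x) : A.n2 x ≤ A.hs x :=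
  le_of_sq_le_sq (le_hasSum hx.hasSum 0 fun _ _ => sq_nonneg _) (hs_nonneg _)

theorem n2_add (x y : 𝒦 →L[ℂ] 𝒦) : A.n2 (x + y) ≤ A.n2 x + A.n2 y := norm_add_le _ _

theorem n2_sub (x y : 𝒦 →L[ℂ] 𝒦) : A.n2 (x - y) ≤ A.n2 x + A.n2 y := norm_sub_le _ _

theorem n2_rev (x y : 𝒦 →L[ℂ] 𝒦) : A.n2 (x - y) = A.n2 (y - x) := norm_sub_rev _ _

theorem n2_tri (x y z : 𝒦 →L[ℂ] 𝒦) : A.n2 (x - z) ≤ A.n2 (x - y) + A.n2 (y - z) :=
  norm_sub_le_norm_sub_add_norm_sub (x (A.Ω 0)) (y (A.Ω 0)) (z (A.Ω 0))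

theorem n2_smul (c : ℂ) (x : 𝒦 →L[ℂ] 𝒦) : A.n2 (c • x) = ‖c‖ * A.n2 x := norm_smul c (x (A.Ω 0))

theorem n2_mul (a x : 𝒦 →L[ℂ] 𝒦) : A.n2 (a * x) ≤ ‖a‖ * A.n2 x := a.le_opNorm _

theorem n2_mul1 (ha : ‖a‖ ≤ 1) (x : 𝒦 →L[ℂ] 𝒦) : A.n2 (a * x) ≤ A.n2 x :=
  (n2_mul a x).trans (mul_le_of_le_one_left (n2_nonneg _) ha)

theorem n2_le_norm (x : 𝒦 →L[ℂ] 𝒦) : A.n2 x ≤ ‖x‖ := by
  have := x.le_opNorm (A.Ω 0)
  rwa [A.Ω_norm, mul_one] at this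

theorem n2_av {α : Type} [Fintype α] [Nonempty α] {f : α → 𝒦 →L[ℂ] 𝒦} {c : ℝ}
    (h : ∀ i, A.n2 (f i) ≤ c) : A.n2 (av f) ≤ c := by
  rw [n2, av_apply]; exact norm_av_le h

/-- right multiplication of a column -/
theorem n2_right (hx : x * A.V 1 = x) (dx : A.Deg g x) (da : A.Deg h a) :
    A.n2 (x * a) ≤ ‖a‖ * A.n2 x := by
  rw [← hs_eq_n2 hx]
  exact ((hs_col hx).mul_right dx da).n2_le.trans ((hs_col hx).hs_mul_right dx da)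

theorem n2_V_le (dx : A.Deg g x) (h : G) : A.n2 (x * A.V h) ≤ A.n2 x := by
  rw [← p_mul_V, ← mul_assoc, ← n2_p x]
  exact (n2_right (col_p x 1) (dx.mul (deg_V 1)) (deg_V h)).trans
    (mul_le_of_le_one_left (n2_nonneg _) (norm_V h))

theorem n2_V (dx : A.Deg g x) (h : G) : A.n2 (x * A.V h) = A.n2 x := by
  refine (n2_V_le dx h).antisymm ?_
  have := n2_V_le (dx.mul (deg_V h)) h⁻¹
  rwa [mul_assoc, V_mul_inv, n2_p] at this

theorem n2_star (dx : A.Deg g x) (h1 : x * A.V 1 = x) (h2 : A.V 1 * x = x) :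
    A.n2 (star x) = A.n2 x := by
  have h3 : star x * A.V 1 = star x := by rw [← star_p, ← star_mul, h2]
  rw [← hs_eq_n2 h1, ← hs_eq_n2 h3, (hs_col h1).hs_star dx]

theorem i0_le (x y : 𝒦 →L[ℂ] 𝒦) : ‖A.i0 x y‖ ≤ A.n2 x * A.n2 y := norm_inner_le_norm _ _

theorem i0_mul (x a y : 𝒦 →L[ℂ] 𝒦) : A.i0 x (a * y) = A.i0 (star a * x) y := inner_mul a _ _

theorem i0_conj (x y : 𝒦 →L[ℂ] 𝒦) : conj (A.i0 x y) = A.i0 y x := inner_conj_symm _ _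

theorem i0_add (x y z : 𝒦 →L[ℂ] 𝒦) : A.i0 x (y + z) = A.i0 x y + A.i0 x z := inner_add_right _ _ _

theorem i0_sub (x y z : 𝒦 →L[ℂ] 𝒦) : A.i0 x (y - z) = A.i0 x y - A.i0 x z := inner_sub_right _ _ _

theorem add_i0 (x y z : 𝒦 →L[ℂ] 𝒦) : A.i0 (x + y) z = A.i0 x z + A.i0 y z := inner_add_left _ _ _

theorem sub_i0 (x y z : 𝒦 →L[ℂ] 𝒦) : A.i0 (x - y) z = A.i0 x z - A.i0 y z := inner_sub_left _ _ _

theorem i0_smul (c : ℂ) (x y : 𝒦 →L[ℂ] 𝒦) : A.i0 x (c • y) = c * A.i0 x y :=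
  inner_smul_right (x (A.Ω 0)) (y (A.Ω 0)) c

theorem i0_av {α : Type} [Fintype α] (x : 𝒦 →L[ℂ] 𝒦) (f : α → 𝒦 →L[ℂ] 𝒦) :
    A.i0 x (av f) = av fun i => A.i0 x (f i) := by
  rw [i0, av_apply, inner_av]; rfl

theorem i0_p (x y : 𝒦 →L[ℂ] 𝒦) : A.i0 (x * A.V 1) y = A.i0 x y := by
  rw [i0, ContinuousLinearMap.mul_apply, A.Ω_zero, i0]

theorem i0_p' (x y : 𝒦 →L[ℂ] 𝒦) : A.i0 x (y * A.V 1) = A.i0 x y := by
  rw [i0, ContinuousLinearMap.mul_apply, A.Ω_zero, i0]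

theorem τ_eq (x y : 𝒦 →L[ℂ] 𝒦) : A.τ (star x * y) = A.i0 x y := by
  have h := inner_mul (star x) (A.Ω 0) (y (A.Ω 0))
  rw [star_star] at h
  exact h

theorem τ_eq' (y : 𝒦 →L[ℂ] 𝒦) : A.τ y = A.i0 1 y := rfl

/-- moving `V` -/
theorem i0_V (dx : A.Deg (g * h) x) (dy : A.Deg g y) :
    A.i0 x (y * A.V h) = A.i0 (x * A.V h⁻¹) y := by
  have h1 := (hs_col (col_p x 1)).ip_mul_right (hs_col (col_p y 1)) (dx.mul1 (deg_V 1))
    (dy.mul1 (deg_V 1)) (deg_V h)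
  rw [A.V_star, mul_assoc y, p_mul_V, mul_assoc x, p_mul_V,
    ip_col (col_p x 1) (hs_col (col_p y h)), ip_col (col_p x _) (hs_col (col_p y 1)), i0_p,
    i0_p'] at h1
  exact h1

end Amb

end Vale.Agent.P092ST
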