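import Vale.Agent.P092ST.Edge

/-!
P092 (helper42), block B3: protected paths.
-/

set_option linter.all false

open scoped InnerProductSpace ENNReal ComplexConjugate
open MeasureTheory Filter Topology

namespace Vale.Agent.P092ST

/-- the product of a word -/
def wp {G : Type} [Group G] (w : List (G × Bool)) : G := (w.map Prod.fst).prod

/-- the inverse word -/
def wi {G : Type} [Group G] (w : List (G × Bool)) : List (G × Bool) :=
  (w.map fun a => (a.1⁻¹, a.2)).reverse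

theorem wp_cons {G : Type} [Group G] (a : G × Bool) (w : List (G × Bool)) :
    wp (a :: w) = a.1 * wp w := by simp [wp]

theorem wp_append {G : Type} [Group G] (w w' : List (G × Bool)) :
    wp (w ++ w') = wp w * wp w' := by simp [wp]

theorem wi_cons {G : Type} [Group G] (a : G × Bool) (w : List (G × Bool)) :
    wi (a :: w) = wi w ++ [(a.1⁻¹, a.2)] := by simp [wi]

theorem wp_wi {G : Type} [Group G] : ∀ w : List (G × Bool), wp (wi w) = (wp w)⁻¹
  | [] => by simp [wp, wi]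
  | a :: w => by rw [wi_cons, wp_append, wp_wi w, wp_cons a]; simp [wp]

theorem len_wi {G : Type} [Group G] (w : List (G × Bool)) : (wi w).length = w.length := by
  simp [wi]

theorem mem_wi {G : Type} [Group G] {w : List (G × Bool)} {a : G × Bool} (h : a ∈ wi w) :
    (a.1⁻¹, a.2) ∈ w := by
  simp only [wi, List.mem_reverse, List.mem_map] at h
  obtain ⟨b, hb, rfl⟩ := h
  simpa using hb

/-- the numerical constraints -/
structure Par (θ ε E em s : ℝ) : Prop where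
  θ0 : 0 ≤ θ
  θε : θ ≤ ε
  ε1 : ε ≤ 1
  s0 : 0 ≤ s
  em : 6 * em ≤ s ^ 4
  E : 2 * ε ^ 2 + s * ε ≤ E

theorem Par.ε0 {θ ε E em s : ℝ} (h : Par θ ε E em s) : 0 ≤ ε := h.θ0.trans h.θε

theorem Par.sqε {θ ε E em s : ℝ} (h : Par θ ε E em s) : ε ^ 2 ≤ ε := by nlinarith [h.ε0, h.ε1]

theorem Par.sqE {θ ε E em s : ℝ} (h : Par θ ε E em s) : ε ^ 2 ≤ E := by
  nlinarith [h.E, mul_nonneg h.s0 h.ε0, sq_nonneg ε]

theorem Par.E0 {θ ε E em s : ℝ} (h : Par θ ε E em s) : 0 ≤ E := (sq_nonneg ε).trans h.sqE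

namespace Amb

variable {G Γ 𝒦 : Type} [Group G] [TopologicalSpace G] [Group Γ] [NormedAddCommGroup 𝒦]
  [InnerProductSpace ℂ 𝒦] [CompleteSpace 𝒦] (A : Amb G Γ 𝒦) {α β : Type} [Fintype α] [Fintype β]

/-- a letter: two-sided defect `ε`, scalar defect `ε ^ 2` -/
structure Let (ω y : 𝒦 →L[ℂ] 𝒦) (g : G) (ε : ℝ) : Prop where
  two : A.Two ω y g ε
  sc : ‖A.i0 ω (y * ω * A.V g⁻¹ - ω)‖ ≤ ε ^ 2

/-- protected random paths -/
def Prot (ω : 𝒦 →L[ℂ] 𝒦) (ε E em : ℝ) (c : α → G) (X : α → 𝒦 →L[ℂ] 𝒦) (g : α → G) (k : ℕ) :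
    Prop :=
  (∀ a, A.One ω (X a) (g a) (k * ε)) ∧ ∀ (C : α → 𝒦 →L[ℂ] 𝒦) (e : ℝ), e + k * ε ≤ em →
    (∀ a, A.Two ω (C a) (c a) e) →
      A.n2 (av fun a => C a * (X a * ω * A.V (g a)⁻¹ - ω) * A.V (c a)⁻¹) ≤ k * E

/-- the letter or its adjoint -/
noncomputable def ys (y : 𝒦 →L[ℂ] 𝒦) : Bool → (𝒦 →L[ℂ] 𝒦)
  | true => y
  | false => star y

/-- the small element of a move -/
def sv (b : G) (r : ℕ) (H : G) (a : G × Bool) : G := (H * sg b a.2 ^ r)⁻¹ * a.1 * (H * sg b a.2 ^ r)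

/-- one move -/
noncomputable def mv (b : G) (y : 𝒦 →L[ℂ] 𝒦) (r : ℕ) (H : G) (a : G × Bool) : 𝒦 →L[ℂ] 𝒦 :=
  ys y a.2 ^ r * A.SH (sv b r H a) * star (ys y a.2) ^ r

/-- the operator of a word -/
noncomputable def Mw (b : G) (y : 𝒦 →L[ℂ] 𝒦) (r : ℕ) (H : G) (w : List (G × Bool)) :
    𝒦 →L[ℂ] 𝒦 := (w.map (A.mv b y r H)).prod

variable {A} {g h b : G} {ω x y : 𝒦 →L[ℂ] 𝒦} {e θ ε E em s J : ℝ} {c d d' : α → G}
  {X X' : α → 𝒦 →L[ℂ] 𝒦} {k k' : ℕ}

theorem Let.star (hω : A.Iso ω) (h : A.Let ω y g ε) : A.Let ω (star y) g⁻¹ ε := by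
  refine ⟨h.two.star hω, ?_⟩
  have e1 : A.i0 ω (Star.star y * ω * A.V g⁻¹⁻¹ - ω) = conj (A.i0 ω (y * ω * A.V g⁻¹ - ω)) := by
    rw [i0_sub, i0_sub, map_sub, i0_conj, i0_conj, inv_inv, mul_assoc, i0_mul, star_star,
      i0_V ((h.two.deg.mul1 hω.deg).cast (one_mul g).symm) hω.deg]
  rw [e1, RCLike.norm_conj]; exact h.sc

theorem Let.ys (hω : A.Iso ω) (h : A.Let ω y b ε) : ∀ s, A.Let ω (ys y s) (sg b s) ε
  | true => h
  | false => h.star hω

theorem err_eq (hω : A.Iso ω) (x : 𝒦 →L[ℂ] 𝒦) (g : G) :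
    x * ω * A.V g⁻¹ - ω = (x * ω - ω * A.V g) * A.V g⁻¹ := by
  rw [sub_mul, mul_assoc ω, V_mul_inv, hω.col]

theorem One.err (hω : A.Iso ω) (h : A.One ω x g e) : A.n2 (x * ω * A.V g⁻¹ - ω) ≤ e := by
  rw [err_eq hω]; exact (n2_V_le (h.ddeg hω) _).trans h.l

theorem err_deg (hω : A.Iso ω) (h : A.Deg g x) : A.Deg 1 (x * ω * A.V g⁻¹ - ω) :=
  (((h.mul1 hω.deg).mul (deg_V _)).cast (mul_inv_cancel g)).sub hω.deg

theorem Prot.congr (h : A.Prot ω ε E em c X d k) {c' : α → G} (e1 : ∀ a, c' a = c a)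
    (e2 : ∀ a, X' a = X a) (e3 : ∀ a, d' a = d a) : A.Prot ω ε E em c' X' d' k := by
  rw [(funext e1 : c' = c), (funext e2 : X' = X), (funext e3 : d' = d)]; exact h

theorem Prot.mono (hp : Par θ ε E em s) (h : A.Prot ω ε E em c X d k) (hk : k ≤ k') :
    A.Prot ω ε E em c X d k' := by
  have h1 : (k : ℝ) * ε ≤ k' * ε := mul_le_mul_of_nonneg_right (Nat.cast_le.2 hk) hp.ε0
  exact ⟨fun a => (h.1 a).mono h1, fun C e he hC => (h.2 C e (by linarith) hC).trans
    (mul_le_mul_of_nonneg_right (Nat.cast_le.2 hk) hp.E0)⟩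

theorem Prot.mul (hω : A.Iso ω) (hp : Par θ ε E em s) (h : A.Prot ω ε E em c X d k)
    (h' : A.Prot ω ε E em (fun a => c a * d a) X' d' k') :
    A.Prot ω ε E em c (fun a => X a * X' a) (fun a => d a * d' a) (k + k') := by
  refine ⟨fun a => ((h.1 a).mul hω (h'.1 a)).mono (by push_cast; linarith), fun C e he hC => ?_⟩
  push_cast at he ⊢
  have h1 := h.2 C e (by nlinarith [mul_nonneg (Nat.cast_nonneg (α := ℝ) k') hp.ε0]) hC
  have h2 := h'.2 (fun a => C a * X a) (e + k * ε) (by linarith)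
    fun a => (hC a).mul_one hω (h.1 a)
  have e1 : (fun a => C a * (X a * X' a * ω * A.V (d a * d' a)⁻¹ - ω) * A.V (c a)⁻¹) = fun a =>
      C a * (X a * ω * A.V (d a)⁻¹ - ω) * A.V (c a)⁻¹ +
        C a * X a * (X' a * ω * A.V (d' a)⁻¹ - ω) * A.V (c a * d a)⁻¹ := funext fun a => by
    rw [mul_inv_rev, mul_inv_rev, ← A.V_mul, ← A.V_mul]; noncomm_ring
  rw [e1, av_add]
  exact (n2_add _ _).trans (by linarith)

theorem prot_small [Nonempty α] (hω : A.Iso ω) (hp : Par θ ε E em s)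
    (h : ∀ a, A.One ω (X a) (d a) (ε ^ 2)) : A.Prot ω ε E em c X d 1 := by
  refine ⟨fun a => (h a).mono (by simpa using hp.sqε), fun C e _ hC => n2_av fun a => ?_⟩
  refine (n2_V_le ((hC a).deg.mul (err_deg hω (h a).deg)) _).trans ?_
  exact (n2_mul1 (hC a).nrm _).trans (((h a).err hω).trans (by simpa using hp.sqE))

theorem prot_one [Nonempty α] (hω : A.Iso ω) :
    A.Prot ω ε E em c (fun _ => 1) (fun _ => 1) 0 := by
  refine ⟨fun a => hω.one_id.mono (by simp), fun C e _ hC => n2_av fun a => ?_⟩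
  rw [one_mul, inv_one, hω.col, sub_self, mul_zero, zero_mul, n2_zero]; simp

theorem prot_let [Nonempty α] (hω : A.Iso ω) (hp : Par θ ε E em s) (h : A.Let ω y g ε)
    (hm : A.Mix θ c) : A.Prot ω ε E em c (fun _ => y) (fun _ => g) 1 := by
  refine ⟨fun a => (h.two.one hω).mono (by simp), fun C e he hC => ?_⟩
  have n1 : ‖y * ω * A.V g⁻¹ - ω‖ ≤ 2 := (norm_sub_le _ _).trans (by
    linarith [norm_mul_le1 (norm_mul_le1 h.two.nrm hω.nrm) (norm_V (A := A) g⁻¹), hω.nrm])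
  have h1 := edge hω hm hp.θ0 hC (err_deg hω h.two.deg) (col_sub (col_p _ _) hω.col) n1
    ((h.two.one hω).err hω) hp.θε h.sc hp.s0 (by nlinarith [hp.em, hp.ε0])
  refine h1.trans ?_
  rw [Nat.cast_one, one_mul]
  nlinarith [hp.E, mul_le_mul_of_nonneg_right hp.θε hp.ε0]

theorem prot_pow [Nonempty α] (hω : A.Iso ω) (hp : Par θ ε E em s) (h : A.Let ω y g ε)
    (hm : A.Mix θ c) : ∀ r : ℕ, A.Prot ω ε E em c (fun _ => y ^ r) (fun _ => g ^ r) r
  | 0 => (prot_one hω).congr (fun _ => rfl) (fun _ => pow_zero y) fun _ => pow_zero g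
  | r + 1 => ((prot_pow hω hp h hm r).mul hω hp (prot_let hω hp h (hm.right hp.θ0 _))).congr
      (fun _ => rfl) (fun _ => pow_succ y r) fun _ => pow_succ g r

theorem Prot.fst [Nonempty β] {c d : α × β → G} {X : α × β → 𝒦 →L[ℂ] 𝒦}
    (h : ∀ j, A.Prot ω ε E em (fun a => c (a, j)) (fun a => X (a, j)) (fun a => d (a, j)) k) :
    A.Prot ω ε E em c X d k :=
  ⟨fun a => (h a.2).1 a.1, fun C e he hC => by
    rw [av_prod]
    exact n2_av fun j => (h j).2 (fun a => C (a, j)) e he fun a => hC _⟩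

theorem Prot.equiv (φ : β ≃ α)
    (h : A.Prot ω ε E em (fun a => c (φ a)) (fun a => X (φ a)) (fun a => d (φ a)) k) :
    A.Prot ω ε E em c X d k :=
  ⟨fun a => by simpa using h.1 (φ.symm a), fun C e he hC => by
    rw [av_equiv φ]
    exact h.2 (fun a => C (φ a)) e he fun a => hC _⟩

theorem Prot.snd [Nonempty α] {c d : α × β → G} {X : α × β → 𝒦 →L[ℂ] 𝒦}
    (h : ∀ i, A.Prot ω ε E em (fun a => c (i, a)) (fun a => X (i, a)) (fun a => d (i, a)) k) :
    A.Prot ω ε E em c X d k :=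
  Prot.equiv (Equiv.prodComm β α) (Prot.fst h)

theorem prot_mv [Nonempty α] (hω : A.Iso ω) (hp : Par θ ε E em s) (h : A.Let ω y b ε) (r : ℕ)
    {l H : α → G} (hm : ∀ g, A.Mix θ fun a => l a * g * H a) (u : G × Bool)
    (hu : ∀ a, A.One ω (A.SH (sv b r (H a) u)) (sv b r (H a) u) (ε ^ 2)) :
    A.Prot ω ε E em (fun a => l a * H a) (fun a => A.mv b y r (H a) u)
      (fun a => (H a)⁻¹ * u.1 * H a) (2 * r + 1) := by
  have h1 := prot_pow hω hp (h.ys hω u.2) ((hm 1).congr (c' := fun a => l a * H a)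
    fun a => by rw [mul_one]) r
  have h3 := prot_pow hω hp ((h.ys hω u.2).star hω) (((hm u.1).right hp.θ0 (sg b u.2 ^ r)).congr
    (c' := fun a => l a * H a * (sg b u.2 ^ r * sv b r (H a) u)) fun a => by
      rw [sv]; group) r
  refine (((h1.mul hω hp (prot_small hω hp hu)).mul hω hp h3).congr (fun _ => rfl)
    (fun _ => rfl) fun a => ?_).mono hp (by omega)
  rw [sv, inv_pow]; group

theorem Mw_cons (r : ℕ) (H : G) (u : G × Bool) (w : List (G × Bool)) :
    A.Mw b y r H (u :: w) = A.mv b y r H u * A.Mw b y r H w := by simp [Mw]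

theorem prot_Mw [Nonempty α] (hω : A.Iso ω) (hp : Par θ ε E em s) (h : A.Let ω y b ε) (r : ℕ)
    {H : α → G} : ∀ (w : List (G × Bool)) {l : α → G}, (∀ g, A.Mix θ fun a => l a * g * H a) →
    (∀ u ∈ w, ∀ a, A.One ω (A.SH (sv b r (H a) u)) (sv b r (H a) u) (ε ^ 2)) →
    A.Prot ω ε E em (fun a => l a * H a) (fun a => A.Mw b y r (H a) w)
      (fun a => (H a)⁻¹ * wp w * H a) (w.length * (2 * r + 1))
  | [], l, _, _ => ((prot_one hω).congr (fun _ => rfl) (fun _ => by simp [Mw])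
      fun _ => by simp [wp]).mono hp (by simp)
  | u :: w, l, hm, hu => by
    have h1 := prot_mv hω hp h r hm u (hu u List.mem_cons_self)
    have h2 := prot_Mw hω hp h r w (l := fun a => l a * u.1)
      (fun g => (hm (u.1 * g)).congr fun a => by simp only [mul_assoc])
      fun v hv => hu v (List.mem_cons_of_mem _ hv)
    refine ((h1.mul hω hp (h2.congr (fun a => by group) (fun _ => rfl) fun _ => rfl)).congr
      (fun _ => rfl) (fun _ => Mw_cons _ _ _ _) fun a => ?_).mono hp ?_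
    · rw [wp_cons]; group
    · rw [List.length_cons]; exact le_of_eq (by ring)

theorem One.pow (hω : A.Iso ω) (h : A.One ω y g ε) : ∀ r : ℕ, A.One ω (y ^ r) (g ^ r) (r * ε)
  | 0 => by rw [pow_zero, pow_zero]; exact hω.one_id.mono (by simp)
  | r + 1 => by
    rw [pow_succ, pow_succ]
    exact ((One.pow hω h r).mul hω h).mono (by push_cast; linarith)

theorem One.ys (h : A.One ω y b ε) : ∀ s, A.One ω (ys y s) (sg b s) ε
  | true => h
  | false => h.star

/-- the crude defect of a word -/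
theorem one_Mw (hω : A.Iso ω) (h : A.One ω y b ε) (r : ℕ) (H : G) : ∀ w : List (G × Bool),
    (∀ u ∈ w, A.One ω (A.SH (sv b r H u)) (sv b r H u) ε) →
    A.One ω (A.Mw b y r H w) (H⁻¹ * wp w * H) ((w.length * (2 * r + 1) : ℕ) * ε)
  | [], _ => by simpa [Mw, wp] using hω.one_id
  | u :: w, hu => by
    have h1 := (((h.ys u.2).pow hω r).mul hω (hu u List.mem_cons_self)).mul hω
      ((h.ys u.2).star.pow hω r)
    have h2 := one_Mw hω h r H w fun v hv => hu v (List.mem_cons_of_mem _ hv)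
    rw [Mw_cons]
    refine ((h1.mul hω h2).cast ?_).mono (le_of_eq ?_)
    · rw [sv, wp_cons, inv_pow]; group
    · rw [List.length_cons]; push_cast; ring

theorem sv_inv (r : ℕ) (H : G) (u : G × Bool) : sv b r H (u.1⁻¹, u.2) = (sv b r H u)⁻¹ := by
  rw [sv, sv]; group

theorem star_Mw (r : ℕ) (H : G) : ∀ w : List (G × Bool),
    star (A.Mw b y r H w) = A.Mw b y r H (wi w)
  | [] => by simp [Mw, wi]
  | u :: w => by
    rw [Mw_cons, star_mul, star_Mw r H w, wi_cons, Mw, Mw, List.map_append, List.prod_append]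
    congr 1
    rw [List.map_singleton, List.prod_singleton, mv, mv, star_mul, star_mul, star_pow, star_pow,
      star_star, A.SH_star, sv_inv, mul_assoc]

theorem band_ys (h : A.Band J y) : ∀ s, A.Band J (ys y s)
  | true => h
  | false => h.star

theorem band_Mw (h : A.Band J y) (hJ : 0 ≤ J) (r : ℕ) (H : G) : ∀ w : List (G × Bool),
    A.Band ((w.length * (2 * r + 1) : ℕ) * J) (A.Mw b y r H w)
  | [] => by simpa [Mw] using band_id
  | u :: w => by
    rw [Mw_cons]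
    refine (((((band_ys h u.2).pow r).mul0 (band_SH _)).mul ((band_ys h u.2).star.pow r)).mul
      (band_Mw h hJ r H w)).mono ?_
    rw [List.length_cons]; push_cast; nlinarith

end Amb

end Vale.Agent.P092ST
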