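import Vale.Agent.P092ST.Path

/-!
P092 (helper42), block B3: rational isometries and the Newton step.
-/

set_option linter.all false

open scoped InnerProductSpace ENNReal ComplexConjugate
open MeasureTheory Filter Topology

namespace Vale.Agent.P092ST

section op

variable {𝒦 : Type} [NormedAddCommGroup 𝒦] [InnerProductSpace ℂ 𝒦] [CompleteSpace 𝒦]
  {X Z W R X' Z' W' q x : 𝒦 →L[ℂ] 𝒦}

theorem re_star_mul (x : 𝒦 →L[ℂ] 𝒦) (ξ : 𝒦) : (⟪ξ, (star x * x) ξ⟫_ℂ).re = ‖x ξ‖ ^ 2 := by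
  rw [ContinuousLinearMap.mul_apply, Amb.inner_mul, star_star, inner_self_eq_norm_sq_to_K]
  norm_cast

theorem norm_refl (hX : ‖X‖ ≤ 1) : ‖1 - (2 : ℂ) • (star X * X)‖ ≤ 1 := by
  refine ContinuousLinearMap.opNorm_le_bound _ zero_le_one fun ξ => ?_
  have h1 := norm_sub_sq (𝕜 := ℂ) ξ ((2 : ℂ) • (star X * X) ξ)
  have h2 : ‖(star X * X) ξ‖ ≤ ‖X ξ‖ := ((star X).le_opNorm _).trans
    (mul_le_of_le_one_left (norm_nonneg _) (by rwa [norm_star]))
  have h3 := pow_le_pow_left₀ (norm_nonneg _) h2 2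
  have h4 := re_star_mul X ξ
  rw [inner_smul_right, norm_smul] at h1
  simp only [RCLike.re_to_complex, Complex.mul_re, Complex.re_ofNat, Complex.im_ofNat,
    Complex.norm_ofNat] at h1
  rw [one_mul]
  refine le_of_sq_le_sq ?_ (norm_nonneg _)
  change ‖ξ - (2 : ℂ) • (star X * X) ξ‖ ^ 2 ≤ _
  nlinarith

theorem norm_compl (hX : ‖X‖ ≤ 1) : ‖1 - star X * X‖ ≤ 1 := by
  have e : 1 - star X * X = (2 : ℂ)⁻¹ • (1 + (1 - (2 : ℂ) • (star X * X))) := by module
  rw [e, norm_smul]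
  have := norm_add_le (1 : 𝒦 →L[ℂ] 𝒦) (1 - (2 : ℂ) • (star X * X))
  have h1 := norm_refl hX
  have h2 := Amb.norm_one_le (𝒦 := 𝒦)
  simp only [norm_inv, Complex.norm_ofNat]
  linarith

/-- the ratio of the Neumann series -/
noncomputable def kk (X : 𝒦 →L[ℂ] 𝒦) : 𝒦 →L[ℂ] 𝒦 := (3 : ℂ)⁻¹ • (1 - (2 : ℂ) • (star X * X))

theorem norm_kk (hX : ‖X‖ ≤ 1) : ‖kk X‖ ≤ 3⁻¹ := by
  rw [kk, norm_smul]
  simp only [norm_inv, Complex.norm_ofNat]
  linarith [norm_refl hX]

theorem one_sub_kk (X : 𝒦 →L[ℂ] 𝒦) : 1 - kk X = (2 / 3 : ℂ) • (1 + star X * X) := by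
  rw [kk]; module

/-- the rational isometry -/
structure RatD (X Z W R : 𝒦 →L[ℂ] 𝒦) : Prop where
  r1 : (1 + star X * X) * R = 1
  r2 : R * (1 + star X * X) = 1
  nR : ‖R‖ ≤ 1
  w : W = ((2 : ℂ) • X + Z * (1 - star X * X)) * R

theorem exists_rat (hX : ‖X‖ ≤ 1) (Z : 𝒦 →L[ℂ] 𝒦) : ∃ W R, RatD X Z W R := by
  have hk : ‖kk X‖ < 1 := (norm_kk hX).trans_lt (by norm_num)
  have h1 := geom_series_mul_neg _ hk
  have h2 := mul_neg_geom_series _ hk
  rw [one_sub_kk] at h1 h2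
  have r1 : (1 + star X * X) * ((2 / 3 : ℂ) • ∑' i : ℕ, kk X ^ i) = 1 := by
    rwa [mul_smul_comm, ← smul_mul_assoc]
  refine ⟨_, _, r1, by rwa [smul_mul_assoc, ← mul_smul_comm], ?_, rfl⟩
  generalize (2 / 3 : ℂ) • ∑' i : ℕ, kk X ^ i = R at r1 ⊢
  have e : (2 / 3 : ℂ) • (1 : 𝒦 →L[ℂ] 𝒦) + kk X * R = R := by
    rw [← r1, ← smul_mul_assoc, ← one_sub_kk]; noncomm_ring
  have h3 := norm_add_le ((2 / 3 : ℂ) • (1 : 𝒦 →L[ℂ] 𝒦)) (kk X * R)
  rw [e, norm_smul] at h3
  have h4 := (norm_mul_le (kk X) R).trans (mul_le_mul_of_nonneg_right (norm_kk hX) (norm_nonneg _))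
  have h5 := Amb.norm_one_le (𝒦 := 𝒦)
  simp only [norm_div, Complex.norm_ofNat] at h3
  linarith

namespace RatD

theorem star_R (h : RatD X Z W R) : star R = R := by
  have h1 := congrArg star h.r1
  rw [star_mul, star_add, star_one, star_mul, star_star] at h1
  calc star R = star R * ((1 + star X * X) * R) := by rw [h.r1, mul_one]
    _ = R := by rw [← mul_assoc, h1, one_mul]

theorem eq (h : RatD X Z W R) : W * (1 + star X * X) = (2 : ℂ) • X + Z * (1 - star X * X) := by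
  rw [h.w, mul_assoc, h.r2, mul_one]

theorem iso (h : RatD X Z W R) (hZX : star Z * X = 0) (hZ : star Z * Z = q) (hq : X * q = X) :
    star W * W = q := by
  have sq : star q = q := by rw [← hZ, star_mul, star_star]
  have hXZ : star X * Z = 0 := by
    have := congrArg star hZX
    rwa [star_mul, star_star, star_zero] at this
  have hq' : q * star X = star X := by rw [← sq, ← star_mul, hq]
  set T := star X * X with hT
  have t1 : T * q = T := by rw [hT, mul_assoc, hq]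
  have t2 : q * T = T := by rw [hT, ← mul_assoc, hq']
  have e1 : star ((2 : ℂ) • X + Z * (1 - T)) * ((2 : ℂ) • X + Z * (1 - T)) =
      (1 + T) * q * (1 + T) := by
    have s2 : star (2 : ℂ) = 2 := by simp
    rw [star_add, star_smul, star_mul, star_sub, star_one, hT, star_mul, star_star, ← hT, s2,
      two_smul, two_smul]
    calc _ = T + T + T + T + (star X * Z + star X * Z) * (1 - T) +
          (1 - T) * (star Z * X + star Z * X) + (1 - T) * (star Z * Z) * (1 - T) := by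
          rw [hT]; noncomm_ring
      _ = T + T + T + T + (q - T * q - q * T + T * q * T) := by
          rw [hXZ, hZX, hZ]; noncomm_ring
      _ = q + T * q + q * T + T * q * T := by rw [t1, t2]; abel
      _ = _ := by noncomm_ring
  rw [h.w, star_mul, h.star_R, mul_assoc, ← mul_assoc (star _), e1]
  calc _ = R * (1 + T) * q * ((1 + T) * R) := by noncomm_ring
    _ = q := by rw [h.r1, h.r2, one_mul, mul_one]

theorem sub_eq (h : RatD X Z W R) : W - X = (X + Z) * R * (1 - star X * X) := by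
  have c : R * (star X * X) = star X * X * R := by
    have h1 := h.r1.trans h.r2.symm
    rw [add_mul, mul_add, one_mul, mul_one] at h1
    exact (add_left_cancel h1).symm
  calc W - X = W - X * ((1 + star X * X) * R) := by rw [h.r1, mul_one]
    _ = (X + Z) * (R - star X * X * R) := by rw [h.w, two_smul]; noncomm_ring
    _ = _ := by rw [← c]; noncomm_ring

theorem room (h : RatD X Z W R) {f : 𝒦 →L[ℂ] 𝒦} (h1 : f * X = 0) (h2 : f * Z = 0) : f * W = 0 := by
  rw [h.w, ← mul_assoc, mul_add, mul_smul_comm, ← mul_assoc, h1, h2]; simp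

theorem pert (h : RatD X Z W R)
    (h' : W' * (1 + star X' * X') = (2 : ℂ) • X' + Z' * (1 - star X' * X')) :
    W' - W = ((2 : ℂ) • (X' - X) + (Z' - Z) * (1 - star X' * X') -
      (Z + W') * (star X' * (X' - X) + star (X' - X) * X)) * R := by
  have e := h.eq
  rw [two_smul] at e h'
  calc W' - W = (W' - W) * ((1 + star X * X) * R) := by rw [h.r1, mul_one]
    _ = (W' * (1 + star X' * X') - W * (1 + star X * X) -
          W' * (star X' * X' - star X * X)) * R := by noncomm_ring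
    _ = _ := by rw [e, h', two_smul, star_sub]; noncomm_ring

theorem trunc (h : RatD X Z W R) (N : ℕ) : W * (1 - kk X ^ N) =
    ((2 : ℂ) • X + Z * (1 - star X * X)) * ((2 / 3 : ℂ) • ∑ i ∈ Finset.range N, kk X ^ i) := by
  rw [← mul_neg_geom_sum, one_sub_kk, smul_mul_assoc, mul_smul_comm, ← mul_assoc, h.eq,
    mul_smul_comm]

end RatD

/-- the Newton polynomial -/
noncomputable def nw (x : 𝒦 →L[ℂ] 𝒦) : 𝒦 →L[ℂ] 𝒦 := (2 : ℂ)⁻¹ • ((3 : ℂ) • x - x * star x * x)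

theorem norm_nw (hx : ‖x‖ ≤ 2) : ‖nw x‖ ≤ 1 := by
  refine ContinuousLinearMap.opNorm_le_bound _ zero_le_one fun ξ => ?_
  have e : star (nw x) * nw x = 1 - star (1 - star x * x) * (1 - star x * x) +
      (4 : ℂ)⁻¹ • (star (x * (1 - star x * x)) * (x * (1 - star x * x))) := by
    have s2 : star (2 : ℂ)⁻¹ = 2⁻¹ := by simp
    have s3 : star (3 : ℂ) = 3 := by simp
    simp only [nw, star_smul, star_sub, star_mul, star_star, star_one, s2, s3, mul_sub, sub_mul,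
      smul_mul_assoc, mul_smul_comm, mul_assoc, one_mul, mul_one]
    module
  have h1 := re_star_mul (nw x) ξ
  have h2 := re_star_mul (1 - star x * x) ξ
  have h3 := re_star_mul (x * (1 - star x * x)) ξ
  have h4 : ‖(x * (1 - star x * x)) ξ‖ ≤ 2 * ‖(1 - star x * x) ξ‖ :=
    (x.le_opNorm _).trans (mul_le_mul_of_nonneg_right hx (norm_nonneg _))
  have h5 := pow_le_pow_left₀ (norm_nonneg _) h4 2
  have h6 := re_star_mul 1 ξ
  rw [star_one, one_mul] at h6
  have e4 : (4 : ℂ)⁻¹ = ((4⁻¹ : ℝ) : ℂ) := by simp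
  rw [e, ContinuousLinearMap.add_apply, ContinuousLinearMap.sub_apply, inner_add_right,
    inner_sub_right, ContinuousLinearMap.smul_apply, inner_smul_right, Complex.add_re,
    Complex.sub_re, h2, e4, Complex.re_ofReal_mul, h3, h6] at h1
  rw [one_mul]
  refine le_of_sq_le_sq ?_ (norm_nonneg _)
  change _ ≤ ‖(1 : 𝒦 →L[ℂ] 𝒦) ξ‖ ^ 2
  nlinarith

end op

namespace Amb

variable {G Γ 𝒦 : Type} [Group G] [TopologicalSpace G] [Group Γ] [NormedAddCommGroup 𝒦]
  [InnerProductSpace ℂ 𝒦] [CompleteSpace 𝒦] {A : Amb G Γ 𝒦} {X Z W R X' Z' W' ω x : 𝒦 →L[ℂ] 𝒦}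
  {g : G} {J e : ℝ}

theorem rat_degR (h : RatD X Z W R) (dX : A.Deg 1 X) : A.Deg 1 R :=
  (deg_id.add (dX.star_mul dX)).inv h.r1 h.r2

theorem rat_deg (h : RatD X Z W R) (dX : A.Deg 1 X) (dZ : A.Deg 1 Z) : A.Deg 1 W :=
  h.w ▸ ((dX.smul _).add (dZ.mul1 (deg_id.sub (dX.star_mul dX)))).mul1 (rat_degR h dX)

theorem rat_close (h : RatD X Z W R) (nX : ‖X‖ ≤ 1) (nZ : ‖Z‖ ≤ 1) (y : 𝒦 →L[ℂ] 𝒦) :
    A.n2 (W * y - X * y) ≤ 2 * A.n2 (y - star X * X * y) := by
  have e : W * y - X * y = (X + Z) * R * (y - star X * X * y) := by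
    rw [← sub_mul, h.sub_eq]; noncomm_ring
  rw [e]
  refine (n2_mul _ _).trans (mul_le_mul_of_nonneg_right ((norm_mul_le _ _).trans ?_) (n2_nonneg _))
  exact (mul_le_of_le_one_right (norm_nonneg _) h.nR).trans ((norm_add_le _ _).trans (by linarith))

theorem rat_pert_norm (h : RatD X Z W R)
    (h' : W' * (1 + star X' * X') = (2 : ℂ) • X' + Z * (1 - star X' * X')) (nX : ‖X‖ ≤ 1)
    (nX' : ‖X'‖ ≤ 1) (nZ : ‖Z‖ ≤ 1) (nW : ‖W'‖ ≤ 1) : ‖W' - W‖ ≤ 6 * ‖X' - X‖ := by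
  rw [h.pert h', sub_self, zero_mul, add_zero]
  refine (norm_mul_le _ _).trans ((mul_le_of_le_one_right (norm_nonneg _) h.nR).trans
    ((norm_sub_le _ _).trans ?_))
  have h1 : ‖star X' * (X' - X) + star (X' - X) * X‖ ≤ 2 * ‖X' - X‖ := by
    have h2 := norm_mul_le (star X') (X' - X)
    have h3 := norm_mul_le (star (X' - X)) X
    rw [norm_star] at h2 h3
    nlinarith [norm_add_le (star X' * (X' - X)) (star (X' - X) * X), norm_nonneg (X' - X)]
  have h2 := (norm_mul_le (Z + W') _).trans (mul_le_mul (b := 2)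
    ((norm_add_le _ _).trans (by linarith)) h1 (norm_nonneg _) zero_le_two)
  rw [norm_smul, Complex.norm_ofNat]
  linarith

theorem rat_pert_n2 (h : RatD X Z W R)
    (h' : W' * (1 + star X' * X') = (2 : ℂ) • X' + Z' * (1 - star X' * X')) (nX : ‖X‖ ≤ 1)
    (nX' : ‖X'‖ ≤ 1) (nZ : ‖Z‖ ≤ 1) (nW : ‖W'‖ ≤ 1) (dX : A.Deg 1 X) (dX' : A.Deg 1 X')
    (dZ : A.Deg 1 Z) (dZ' : A.Deg 1 Z') (dW : A.Deg 1 W') (cX : X * A.V 1 = X)
    (cX' : X' * A.V 1 = X') (cZ : Z * A.V 1 = Z) (cZ' : Z' * A.V 1 = Z') :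
    A.n2 (W' - W) ≤ 6 * A.n2 (X' - X) + A.n2 (Z' - Z) := by
  have dΔ := dX'.sub dX
  have cΔ := col_sub cX' cX
  have d1 := deg_id.sub (dX'.star_mul dX')
  have c1 : (Z' - Z) * (1 - star X' * X') * A.V 1 = (Z' - Z) * (1 - star X' * X') := by
    rw [mul_assoc, sub_mul 1, one_mul, mul_assoc, cX', mul_sub, col_sub cZ' cZ, mul_sub, mul_one]
  have h0 : A.n2 (star (X' - X) * X) ≤ A.n2 (X' - X) := by
    have k := cor_star_mul cX cΔ
    have := n2_star (dX.star_mul dΔ) k.col k.row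
    rw [star_mul, star_star] at this
    rw [this]; exact n2_mul1 (by rwa [norm_star]) _
  have h1 := (n2_add _ _).trans (add_le_add (n2_mul1 (A := A) (a := star X')
    (by rwa [norm_star]) (X' - X)) h0)
  have h2 := (n2_mul (A := A) (Z + W') _).trans (mul_le_mul (b := 2)
    ((norm_add_le _ _).trans (by linarith)) h1 (n2_nonneg _) zero_le_two)
  have h3 := (n2_right (col_sub cZ' cZ) (dZ'.sub dZ) d1).trans
    (mul_le_of_le_one_left (n2_nonneg _) (norm_compl nX'))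
  rw [h.pert h']
  refine (n2_right (col_sub ?_ ?_) (((dΔ.smul _).add ((dZ'.sub dZ).mul1 d1)).sub ((dZ.add dW).mul1
    ((dX'.star_mul dΔ).add (dΔ.star_mul dX)))) (rat_degR h dX)).trans
    ((mul_le_of_le_one_left (n2_nonneg _) h.nR).trans ((n2_sub _ _).trans ?_))
  · rw [add_mul, c1, smul_mul_assoc, cΔ]
  · exact col_mul (show (star X' * (X' - X) + star (X' - X) * X) * A.V 1 = _ by
      rw [add_mul, col_mul cΔ, col_mul cX]) _
  · have h4 := n2_add (A := A) ((2 : ℂ) • (X' - X)) ((Z' - Z) * (1 - star X' * X'))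
    rw [n2_smul, Complex.norm_ofNat] at h4
    linarith

theorem rat_band (h : RatD X Z W R) (bX : A.Band J X) (bZ : A.Band 0 Z) (hJ : 0 ≤ J) (N : ℕ) :
    A.Band ((2 * N + 2) * J) (W * (1 - kk X ^ N)) := by
  have bT := bX.star.mul bX
  have b1 : A.Band (J + J) (kk X) := ((band_id.mono (by linarith)).sub (bT.smul _)).smul _
  rw [h.trunc]
  refine (((bX.mono (b := J + J) (by linarith)).smul _).add
    (bZ.zero_mul ((band_id.mono (by linarith)).sub bT))).mul (b := N * (J + J))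
    (Band.smul _ (Band.sum fun i hi => (b1.pow i).mono ?_)) |>.mono (le_of_eq (by ring))
  exact mul_le_mul_of_nonneg_right (Nat.cast_le.2 (Finset.mem_range.1 hi).le) (by linarith)

theorem Deg.kk (dX : A.Deg 1 X) : A.Deg 1 (kk X) := (deg_id.sub ((dX.star_mul dX).smul _)).smul _

theorem Deg.nw (h : A.Deg g x) : A.Deg g (nw x) :=
  ((h.smul _).sub ((h.mul_star h).one_mul h)).smul _

theorem Band.nw (h : A.Band J x) (hJ : 0 ≤ J) : A.Band (3 * J) (nw x) :=
  (((h.mono (by linarith)).smul _).sub (((h.mul h.star).mul h).mono (by linarith))).smul _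

theorem two_nw (hω : A.Iso ω) (d : A.Deg g x) (n : ‖x‖ ≤ 2) (h : A.HS (x - A.ζ ω g))
    (he : A.hs (x - A.ζ ω g) ≤ e) : A.Two ω (nw x) g (5 * e) := by
  set z := A.ζ ω g with hz
  have dz := hω.deg_ζ g
  have nz := hω.norm_ζ g
  have dΔ := d.sub dz
  have zz : z * star z * z = z := by
    rw [hz, star_ζ, hω.ζζ, hω.ζζ, mul_inv_cancel, one_mul]
  have e1 : nw x - z = (2 : ℂ)⁻¹ • ((3 : ℂ) • (x - z) - ((x - z) * (star x * x) +
      z * (star (x - z) * x) + z * star z * (x - z))) := by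
    have e2 : (x - z) * (star x * x) + z * (star (x - z) * x) + z * star z * (x - z) =
        x * star x * x - z := by
      rw [star_sub]
      calc _ = x * star x * x - z * star z * z := by noncomm_ring
        _ = _ := by rw [zz]
    rw [e2, nw]; module
  have s1 := h.mul_right dΔ (d.star_mul d)
  have s2 := ((h.star dΔ).mul_right dΔ.star d).mul z
  have s3 := h.mul (z * star z)
  have n1 : A.hs ((x - z) * (star x * x)) ≤ 4 * e := (h.hs_mul_right dΔ (d.star_mul d)).trans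
    (mul_le_mul (by rw [CStarRing.norm_star_mul_self]; nlinarith [norm_nonneg x]) he
      (hs_nonneg _) (by norm_num))
  have n2 : A.hs (z * (star (x - z) * x)) ≤ 2 * e :=
    (((h.star dΔ).mul_right dΔ.star d).hs_mul1 nz).trans
      (((h.star dΔ).hs_mul_right dΔ.star d).trans
        (mul_le_mul n ((h.hs_star dΔ).trans_le he) (hs_nonneg _) zero_le_two))
  have n3 := (h.hs_mul1 (norm_mul_le1 nz (show ‖star z‖ ≤ 1 by rwa [norm_star]))).trans he
  have s4 := (h.smul 3).sub ((s1.add s2).add s3)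
  refine ⟨d.nw, norm_nw n, e1 ▸ s4.smul _, ?_⟩
  have h1 := (h.smul 3).hs_sub ((s1.add s2).add s3)
  have h2 := (s1.add s2).hs_add s3
  have h3 := s1.hs_add s2
  rw [h.hs_smul, Complex.norm_ofNat] at h1
  rw [e1, s4.hs_smul, norm_inv, Complex.norm_ofNat]
  linarith

theorem sc_nw (hω : A.Iso ω) (h : A.One ω x g e) {c : ℝ} (hc : A.i0 ω (x * ω * A.V g⁻¹) = c) :
    ‖A.i0 ω (nw x * ω * A.V g⁻¹ - ω)‖ ≤ 2 * e ^ 2 := by
  have o1 : A.i0 ω ω = 1 := by rw [i0_self, hω.n2_eq]; simp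
  have h1 : A.n2 (x * star x * ω - ω) ≤ e + e := by
    have := h.l_mul hω h.star
    rwa [mul_inv_cancel, hω.col] at this
  have h2 := (i0_le (A := A) (x * star x * ω - ω) (x * ω * A.V g⁻¹ - ω)).trans
    (mul_le_mul h1 (h.err hω) (n2_nonneg _) (by linarith [h.nonneg]))
  have h3 : ‖A.i0 (star x * ω - ω * A.V g⁻¹) (star x * ω - ω * A.V g⁻¹)‖ ≤ e * e :=
    (i0_le _ _).trans (mul_le_mul h.r h.r (n2_nonneg _) h.nonneg)
  have e1 : A.i0 (star x * ω) (ω * A.V g⁻¹) = c := by rw [← i0_mul, ← mul_assoc, hc]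
  have e2 : A.i0 (ω * A.V g⁻¹) (star x * ω) = c := by rw [← i0_conj, e1, Complex.conj_ofReal]
  have e3 : A.i0 (ω * A.V g⁻¹) (ω * A.V g⁻¹) = 1 := by
    rw [i0_self, n2_V hω.deg, hω.n2_eq]; simp
  have e4 : A.i0 (x * star x * ω) ω = A.i0 (star x * ω) (star x * ω) := by
    rw [i0_mul (star x * ω), star_star, mul_assoc]
  have e5 : A.i0 ω (x * star x * x * ω * A.V g⁻¹) = A.i0 (x * star x * ω) (x * ω * A.V g⁻¹) := by
    rw [mul_assoc (x * star x), mul_assoc (x * star x), i0_mul, star_mul, star_star]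
  have e6 : A.i0 ω (nw x * ω * A.V g⁻¹ - ω) = -(2 : ℂ)⁻¹ *
      (A.i0 (x * star x * ω - ω) (x * ω * A.V g⁻¹ - ω) +
        A.i0 (star x * ω - ω * A.V g⁻¹) (star x * ω - ω * A.V g⁻¹)) := by
    rw [nw, smul_mul_assoc, smul_mul_assoc, sub_mul, sub_mul, smul_mul_assoc, smul_mul_assoc]
    simp only [i0_sub, sub_i0, i0_smul, hc, o1, e1, e2, e3, e4, e5]
    ring
  rw [e6, norm_mul, norm_neg, norm_inv, Complex.norm_ofNat]
  have := norm_add_le (A.i0 (x * star x * ω - ω) (x * ω * A.V g⁻¹ - ω))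
    (A.i0 (star x * ω - ω * A.V g⁻¹) (star x * ω - ω * A.V g⁻¹))
  nlinarith [sq_nonneg e]

theorem exists_let (hω : A.Iso ω) (h : A.Two ω x g e) (he : e ≤ 1 / 2) (b : A.Band J x)
    (hJ : 0 ≤ J) : ∃ y, A.Let ω y g (15 * e) ∧ A.Band (3 * J) y := by
  set c := A.i0 ω (x * ω * A.V g⁻¹) with hc
  have o1 : A.i0 ω ω = 1 := by rw [i0_self, hω.n2_eq]; simp
  have h1 : ‖c - 1‖ ≤ e := by
    have := i0_le (A := A) ω (x * ω * A.V g⁻¹ - ω)
    rw [i0_sub, o1, hω.n2_eq, one_mul] at this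
    exact this.trans ((h.one hω).err hω)
  have h2 : |‖c‖ - 1| ≤ e := by
    have := abs_norm_sub_norm_le c 1
    rw [norm_one] at this
    exact this.trans h1
  have c0 : ‖c‖ ≠ 0 := by have := abs_le.1 h2; intro c1; linarith
  have c1 : (‖c‖ : ℂ) ≠ 0 := Complex.ofReal_ne_zero.2 c0
  set φ : ℂ := conj c / ‖c‖ with hφ
  have nφ : ‖φ‖ = 1 := by
    rw [hφ, norm_div, RCLike.norm_conj, Complex.norm_real, norm_norm, div_self c0]
  have φc : φ * c = (‖c‖ : ℝ) := by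
    rw [hφ, div_mul_eq_mul_div, Complex.conj_mul', div_eq_iff c1]; ring
  have h3 : ‖φ - 1‖ ≤ 2 * e := by
    have e1 : φ - 1 = ((‖c‖ - 1 : ℝ) : ℂ) - φ * (c - 1) := by
      rw [mul_sub, φc]; push_cast; ring
    rw [e1]
    refine (norm_sub_le _ _).trans ?_
    rw [norm_mul, nφ, Complex.norm_real, Real.norm_eq_abs]
    linarith
  have e1 : φ • x - A.ζ ω g = φ • (x - A.ζ ω g) + (φ - 1) • A.ζ ω g := by module
  have s1 := (h.hs.smul φ).add ((hω.hs_ζ g).smul (φ - 1))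
  have t : A.Two ω (φ • x) g (3 * e) := by
    refine ⟨h.deg.smul _, by rw [norm_smul, nφ, one_mul]; exact h.nrm, e1 ▸ s1, ?_⟩
    have h4 := (h.hs.smul φ).hs_add ((hω.hs_ζ g).smul (φ - 1))
    rw [h.hs.hs_smul, (hω.hs_ζ g).hs_smul, nφ, ← e1] at h4
    nlinarith [h.le, hω.hs_ζ_le g, hs_nonneg (A := A) (A.ζ ω g), norm_nonneg (φ - 1)]
  refine ⟨nw (φ • x), ⟨(two_nw hω t.deg (t.nrm.trans one_le_two) t.hs t.le).mono (by linarith),
    (sc_nw hω (t.one hω) (c := ‖c‖) ?_).trans (by nlinarith [sq_nonneg e])⟩, (b.smul φ).nw hJ⟩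
  rw [smul_mul_assoc, smul_mul_assoc, i0_smul, φc]

end Amb

end Vale.Agent.P092ST
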